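import Vale.Agent.Lib.P154.Prog2

/-! Generated certificates. -/

namespace Vale.Agent.Lib.P154

namespace D2

open Tr in
theorem c0 : chk T0 gs0 (d 1)
    (Bx.mk 281475010265088 33554432 281474909601792 67108864 281475010265088 33554432 281474876047360 33554432) = true := by
  decide +kernel

open Tr in
theorem c1 : chk T0 gs0 (s2 (s3 (d 1) (s1 (s0 (s1 l l) (s2 (s3 (d 1) (s1 l l)) (s0 l (s1 l l)))) (s0 (s1 l l) (s2 (s3 (d 1) (s1 l l)) (s1 (s3 l l) l))))) (s3 (s2 (d 1) (s3 (d 1) (s2 (d 1) (s3 (d 1) (s1 l l))))) (s1 (s0 (s1 l l) (s2 (s0 l (s1 l l)) (s1 l l))) (s0 (s1 l l) (s2 (s3 l l) (s1 l l))))))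
    (Bx.mk 281474993487872 16777216 281474876047360 33554432 281475010265088 33554432 281474943156224 33554432) = true := by
  decide +kernel

open Tr in
theorem c2 : chk T0 gs0 (s0 (s1 (s2 (s3 (d 1) l) (s3 l l)) (s2 (s3 (d 1) l) (s3 l l))) (s1 (s2 (s3 (d 1) (s1 (s2 l l) l)) (s3 (s2 (d 1) (s3 (d 1) l)) (s2 (s1 l l) (s1 l l)))) (s2 (s3 (d 1) (s1 l l)) (s3 (s1 l l) (s1 l l)))))
    (Bx.mk 281474993487872 16777216 281474943156224 33554432 281475010265088 33554432 281474943156224 33554432) = true := by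
  decide +kernel

open Tr in
theorem c3 : chk T0 gs0 (d 1)
    (Bx.mk 281475027042304 16777216 281474876047360 33554432 281474993487872 16777216 281474926379008 16777216) = true := by
  decide +kernel

open Tr in
theorem c4 : chk T0 gs0 (s3 (d 1) (s0 (s1 (s0 l (s2 l l)) (s0 l (s1 l l))) (s1 (s2 (s3 (d 1) (s0 l l)) (s3 (s2 (d 1) l) (s0 l l))) (s2 (s3 (d 1) (s0 l l)) (s0 l (s1 l l))))))
    (Bx.mk 281475027042304 16777216 281474859270144 16777216 281474985099264 8388608 281474959933440 16777216) = true := by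
  decide +kernel

open Tr in
theorem c5 : chk T0 gs0 (s0 (s3 (s2 (d 1) (s3 (d 1) (s1 l l))) (s1 (s0 l (s1 l l)) (s2 (s0 l l) l))) (s3 (s2 (d 1) (s3 (d 1) (s1 l l))) (s1 (s2 (s3 (s0 l l) (s0 l l)) (s3 l l)) (s2 (s3 l (s0 l l)) (s3 l l)))))
    (Bx.mk 281475027042304 16777216 281474859270144 16777216 281475001876480 8388608 281474959933440 16777216) = true := by
  decide +kernel

open Tr in
theorem c6 : chk T0 gs0 (s0 (s2 (s3 (d 1) (s1 (s0 l l) l)) (s1 (s3 (s2 (d 1) l) (s0 l l)) (s3 l l))) (s2 (s3 (d 1) (s1 (s0 (s1 l l) (s1 l l)) (s0 l l))) (s3 (s2 (d 1) (s3 (d 1) (s1 l l))) (s1 (s2 (s0 l l) (s0 l l)) (s0 l l)))))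
    (Bx.mk 281475027042304 16777216 281474892824576 16777216 281474993487872 16777216 281474959933440 16777216) = true := by
  decide +kernel

open Tr in
theorem c7 : chk T0 gs0 (s2 (d 1) (s3 (d 1) (s2 (d 1) (s3 (d 1) (s2 (d 1) (s1 (s0 l l) (s0 l l)))))))
    (Bx.mk 281475027042304 16777216 281474876047360 33554432 281475027042304 16777216 281474926379008 16777216) = true := by
  decide +kernel

open Tr in
theorem c8 : chk T0 gs0 (s2 (s3 (s1 (s0 l l) (s0 l l)) (s1 (s0 l l) (s0 l l))) (s3 (s1 l l) (s1 l l)))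
    (Bx.mk 281475018653696 8388608 281474859270144 16777216 281475027042304 16777216 281474959933440 16777216) = true := by
  decide +kernel

open Tr in
theorem c9 : chk T0 gs0 (s2 (s3 (s1 (s2 (s3 (d 1) l) (s0 l l)) (s2 (s3 (d 1) l) (s0 l l))) (s1 (s2 (s0 l l) (s0 l l)) (s2 (s0 l l) (s0 l l)))) (s3 (s1 (s0 l l) (s0 l l)) (s1 (s0 l l) (s0 l l))))
    (Bx.mk 281475035430912 8388608 281474859270144 16777216 281475027042304 16777216 281474959933440 16777216) = true := by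
  decide +kernel

open Tr in
theorem c10 : chk T0 gs0 (s0 (s2 (s1 (s3 (s0 l l) (s0 l l)) (s3 l l)) (s1 (s3 l l) (s3 l l))) (s2 (s1 (s3 (s2 (s3 (d 1) l) l) (s2 (s0 l l) l)) (s3 (s0 l l) (s0 l l))) (s1 (s3 (s0 l l) (s0 l l)) (s3 (s0 l l) (s0 l l)))))
    (Bx.mk 281475027042304 16777216 281474892824576 16777216 281475027042304 16777216 281474959933440 16777216) = true := by
  decide +kernel

open Tr in
theorem c11 : chk T0 gs0 (s3 (d 1) (s1 (s0 (s1 (s2 (s3 (d 1) l) (s3 l l)) (s2 l l)) (s1 (s2 (s3 (d 1) l) (s3 l l)) (s2 (s3 (d 1) l) (s3 l l)))) (s0 (s1 (s2 l l) l) (s1 (s2 l l) (s2 l l)))))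
    (Bx.mk 281475027042304 16777216 281474943156224 33554432 281474993487872 16777216 281474943156224 33554432) = true := by
  decide +kernel

open Tr in
theorem c12 : chk T0 gs0 (s1 (s3 (s2 (d 1) (s3 (d 1) (s2 (d 1) (s3 (d 1) (s0 l l))))) (s0 (s2 (s1 (s3 l l) l) (s1 (s3 l l) l)) (s2 (s1 (s3 l l) (s3 l l)) (s1 (s3 l l) (s3 l l))))) (s0 (s3 (s2 (d 1) (s3 (d 1) l)) (s1 (s2 l l) (s2 l l))) (s3 (s2 (d 1) (s1 l l)) (s1 (s2 l l) (s2 l l)))))
    (Bx.mk 281475027042304 16777216 281474943156224 33554432 281475027042304 16777216 281474943156224 33554432) = true := by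
  decide +kernel

open Tr in
theorem c13 : chk T0 gs0 (s3 (s2 (d 1) (s3 (d 1) (s2 (d 1) (s0 l (s1 l l))))) (s0 (s2 (s3 (s1 l l) (s1 l l)) (s3 (s1 l l) (s1 l l))) (s2 (s3 (s1 (s2 (s3 (d 1) l) l) (s2 (s3 (d 1) l) l)) (s1 (s2 (s1 l l) l) (s2 (s1 l l) l))) (s3 (s1 (s2 l l) (s2 l l)) (s1 (s2 l l) (s2 l l))))))
    (Bx.mk 281474993487872 16777216 281474876047360 33554432 281475077373952 33554432 281474909601792 67108864) = true := by
  decide +kernel

open Tr in
theorem c14 : chk T0 gs0 (s2 (d 1) (s3 (d 1) (s2 (d 1) (s3 (d 1) (s2 (d 1) (s0 l (s1 l l)))))))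
    (Bx.mk 281474993487872 16777216 281474943156224 33554432 281475077373952 33554432 281474876047360 33554432) = true := by
  decide +kernel

open Tr in
theorem c15 : chk T0 gs0 (s0 (s2 (s1 (s3 l l) (s3 l l)) (s1 (s3 l (s1 l l)) (s3 l (s1 l l)))) (s2 (s1 (s3 (s2 (s3 (d 1) l) l) (s0 l (s1 l l))) (s3 (s1 l l) (s1 (s2 l l) l))) (s1 (s3 (s2 l l) (s2 l l)) (s3 (s1 l l) (s0 l l)))))
    (Bx.mk 281474993487872 16777216 281474943156224 33554432 281475077373952 33554432 281474943156224 33554432) = true := by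
  decide +kernel

end D2

end Vale.Agent.Lib.P154
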