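import Vale.Agent.Lib.P154.Prog2

/-! Generated certificates. -/

namespace Vale.Agent.Lib.P154

namespace D2

open Tr in
theorem c16 : chk T0 gs0 (s2 (d 1) (s3 (d 1) (s1 (s2 (d 1) (s3 (d 1) (s2 (d 1) (s0 l (s1 l l))))) (s2 (d 1) (s3 (d 1) (s2 (d 1) (s3 (d 1) (s2 (d 1) (s3 (d 1) (s2 (d 1) (s1 l (s0 l l))))))))))))
    (Bx.mk 281475027042304 16777216 281474909601792 67108864 281475077373952 33554432 281474876047360 33554432) = true := by
  decide +kernel

open Tr in
theorem c17 : chk T0 gs0 (s0 (s1 (s2 (s3 (d 1) (s1 l l)) (s1 l l)) (s2 (s3 (d 1) (s1 l l)) (s1 l l))) (s1 (s2 (s3 (d 1) (s2 (s3 (d 1) l) l)) (s3 (s2 (d 1) l) (s1 l l))) (s2 (s3 (d 1) (s1 l l)) (s1 (s3 l l) (s3 l l)))))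
    (Bx.mk 281475027042304 16777216 281474876047360 33554432 281475060596736 16777216 281474926379008 16777216) = true := by
  decide +kernel

open Tr in
theorem c18 : chk T0 gs0 (s0 (s1 (s2 (s3 (s1 l l) (s1 l l)) (s1 l l)) (s2 (s1 (s3 l l) (s3 l l)) (s1 l l))) (s1 (s2 (s3 (s2 (s1 l l) l) (s2 (s1 l l) l)) (s3 (s1 l l) (s1 l l))) (s2 (s1 (s3 l l) (s3 l l)) (s1 (s3 l l) (s3 l l)))))
    (Bx.mk 281475027042304 16777216 281474876047360 33554432 281475060596736 16777216 281474959933440 16777216) = true := by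
  decide +kernel

open Tr in
theorem c19 : chk T0 gs0 (s3 (s1 (s2 (s1 l l) l) (s2 (s1 l l) (s1 l l))) (s1 (s2 (s1 l l) (s1 l l)) (s2 (s1 l l) (s1 l l))))
    (Bx.mk 281475018653696 8388608 281474876047360 33554432 281475094151168 16777216 281474943156224 33554432) = true := by
  decide +kernel

open Tr in
theorem c20 : chk T0 gs0 (s3 (s1 (s2 (s3 l l) (s1 l l)) (s2 (s0 l (s1 l l)) (s1 l l))) (s1 (s2 (s0 l (s1 l l)) (s1 l l)) (s2 (s0 (s1 l l) (s1 l l)) (s1 l l))))
    (Bx.mk 281475035430912 8388608 281474876047360 33554432 281475094151168 16777216 281474943156224 33554432) = true := by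
  decide +kernel

open Tr in
theorem c21 : chk T0 gs0 (s1 (s3 (s2 (s1 l l) (s1 l l)) (s2 (s1 l l) (s1 l l))) (s3 (s1 (s2 l l) (s2 l l)) (s1 (s2 l l) (s2 l l))))
    (Bx.mk 281475018653696 8388608 281474943156224 33554432 281475060596736 16777216 281474943156224 33554432) = true := by
  decide +kernel

open Tr in
theorem c22 : chk T0 gs0 (s1 (s3 (s2 (s1 l l) (s1 l l)) (s2 (s1 l l) (s1 l l))) (s3 (s0 (s1 l l) (s1 l l)) (s0 (s1 l l) (s1 l l))))
    (Bx.mk 281475018653696 8388608 281474943156224 33554432 281475094151168 16777216 281474943156224 33554432) = true := by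
  decide +kernel

open Tr in
theorem c23 : chk T0 gs0 (s1 (s3 (s2 (s3 (d 1) (s1 l l)) (s1 (s3 l l) l)) (s2 (s1 (s3 l l) (s3 l l)) (s1 (s3 l l) (s3 l l)))) (s3 (s1 (s2 l l) (s2 l l)) (s1 (s2 l l) (s2 l l))))
    (Bx.mk 281475035430912 8388608 281474943156224 33554432 281475060596736 16777216 281474943156224 33554432) = true := by
  decide +kernel

open Tr in
theorem c24 : chk T0 gs0 (s1 (s3 (s2 (s1 l l) (s1 l l)) (s2 (s1 (s3 l l) l) (s1 l l))) (s3 (s2 (s1 l l) (s1 l l)) (s0 (s1 l l) (s1 l l))))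
    (Bx.mk 281475035430912 8388608 281474943156224 33554432 281475094151168 16777216 281474943156224 33554432) = true := by
  decide +kernel

open Tr in
theorem c25 : chk T0 gs0 (d 1)
    (Bx.mk 281475077373952 33554432 281474876047360 33554432 281475010265088 33554432 281474876047360 33554432) = true := by
  decide +kernel

open Tr in
theorem c26 : chk T0 gs0 (d 1)
    (Bx.mk 281475060596736 16777216 281474876047360 33554432 281474993487872 16777216 281474926379008 16777216) = true := by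
  decide +kernel

open Tr in
theorem c27 : chk T0 gs0 (s3 (d 1) (s0 (s1 (s2 (s3 (d 1) (s0 l l)) (s3 (s0 l l) (s0 l l))) (s2 (s3 (d 1) (s0 l l)) (s0 (s1 l l) (s1 l l)))) (s1 (s2 (s3 (d 1) (s0 l l)) (s3 (s2 (d 1) l) (s0 l l))) (s2 (s3 (d 1) (s0 l l)) (s3 (s2 (d 1) l) (s0 l l))))))
    (Bx.mk 281475060596736 16777216 281474859270144 16777216 281474985099264 8388608 281474959933440 16777216) = true := by
  decide +kernel

open Tr in
theorem c28 : chk T0 gs0 (s2 (d 1) (s3 (d 1) (s2 (d 1) (s3 (d 1) (s2 (d 1) (s3 (d 1) (s2 (d 1) (s3 (d 1) (s2 (d 1) (s0 (s1 l l) l))))))))))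
    (Bx.mk 281475060596736 16777216 281474859270144 16777216 281475001876480 8388608 281474951544832 8388608) = true := by
  decide +kernel

open Tr in
theorem c29 : chk T0 gs0 (s1 (s2 (s3 (s0 l l) (s0 l l)) (s3 (s0 l l) (s0 l l))) (s2 (s0 (s1 l l) (s1 l l)) (s0 (s1 l l) (s1 l l))))
    (Bx.mk 281475052208128 8388608 281474859270144 16777216 281475001876480 8388608 281474968322048 8388608) = true := by
  decide +kernel

open Tr in
theorem c30 : chk T0 gs0 (s1 (s2 (s3 (s0 l l) (s0 l l)) (s3 (s0 l l) (s0 l l))) (s2 (s0 (s1 l l) (s1 l l)) (s0 (s1 l l) (s1 l l))))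
    (Bx.mk 281475068985344 8388608 281474859270144 16777216 281475001876480 8388608 281474968322048 8388608) = true := by
  decide +kernel

open Tr in
theorem c31 : chk T0 gs0 (s2 (s3 (d 1) (s0 (s1 (s0 (s2 l l) (s2 l l)) (s0 l l)) (s1 (s0 (s1 l l) (s1 l l)) (s0 l l)))) (s0 (s3 (s2 (d 1) (s3 (d 1) (s1 l l))) (s1 (s2 (s0 l l) (s0 l l)) (s0 l l))) (s3 (s2 (d 1) (s3 (d 1) (s1 l l))) (s1 (s2 (s0 l l) (s0 l l)) (s0 l l)))))
    (Bx.mk 281475060596736 16777216 281474892824576 16777216 281474993487872 16777216 281474959933440 16777216) = true := by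
  decide +kernel

end D2

end Vale.Agent.Lib.P154
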