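import Vale.Agent.Lib.P154.Prog2

/-! Generated certificates. -/

namespace Vale.Agent.Lib.P154

namespace D2

open Tr in
theorem c160 : chk T0 gs0 (s2 (d 0) (s3 (s3 (s2 (d 0) (s3 (s1 (s2 (d 0) (s0 l (s1 l (d 4)))) (s0 (s0 l (d 4)) (d 4))) (d 0))) (d 0)) (d 0)))
    (Bx.mk 281475060596736 16777216 281474943156224 33554432 281475010265088 33554432 281475077373952 33554432) = true := by
  decide +kernel

open Tr in
theorem c161 : chk T0 gs0 (s3 (s1 (s2 (s1 (s3 l l) (s3 l l)) (s1 (s3 l l) (s3 l l))) (s0 (s1 (s2 l l) l) (d 4))) (s1 (s2 (s3 (s1 l l) (s1 l l)) (s3 (s1 l l) (s1 l l))) (s0 (s1 (s2 l l) (s1 l (d 4))) (d 4))))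
    (Bx.mk 281475052208128 8388608 281474943156224 33554432 281475060596736 16777216 281475010265088 33554432) = true := by
  decide +kernel

open Tr in
theorem c162 : chk T0 gs0 (s3 (s1 (s2 (s1 (s3 l l) (s3 l l)) (s0 (s1 l l) (s1 l l))) (s0 (s1 (s2 l l) (s1 l (d 4))) (d 4))) (s1 (s2 (s3 (s1 l l) (s1 l l)) (s0 (s1 l l) (s1 l l))) (s0 (s2 (s1 l l) (s1 l l)) (d 4))))
    (Bx.mk 281475052208128 8388608 281474943156224 33554432 281475094151168 16777216 281475010265088 33554432) = true := by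
  decide +kernel

open Tr in
theorem c163 : chk T0 gs0 (s0 (s1 (s1 (s2 (s3 (s0 (s2 l l) (d 4)) (s0 (s2 l l) (d 4))) (s0 (s1 (s0 (s3 l (s1 l (d 4))) (d 4)) (d 4)) (d 4))) (d 4)) (d 4)) (d 4))
    (Bx.mk 281475068985344 8388608 281474943156224 33554432 281475077373952 33554432 281475010265088 33554432) = true := by
  decide +kernel

open Tr in
theorem c164 : chk T0 gs0 (s3 (s1 (s2 (s3 (s1 l l) (s3 (s2 (d 0) l) (d 0))) (s3 (s0 l (s1 l l)) (s0 l (s1 l l)))) (s0 (s1 (s2 l l) (s2 l l)) (d 4))) (s3 (s2 (d 0) (s3 (s2 (d 0) (s1 l (s0 l (d 4)))) (d 0))) (d 0)))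
    (Bx.mk 281475052208128 8388608 281474943156224 33554432 281475060596736 16777216 281475077373952 33554432) = true := by
  decide +kernel

open Tr in
theorem c165 : chk T0 gs0 (s1 (s0 (s2 (s3 l l) (s3 l l)) (s2 (s3 (s1 l l) (s1 l l)) (s3 (s1 l l) (s1 l l)))) (s0 (s2 (s3 l (s1 l l)) (s3 (s1 l l) (s1 l l))) (d 4)))
    (Bx.mk 281475052208128 8388608 281474943156224 33554432 281475094151168 16777216 281475060596736 16777216) = true := by
  decide +kernel

open Tr in
theorem c166 : chk T0 gs0 (s1 (s0 (s2 (s3 l l) (s3 l (s1 l l))) (s2 (s3 (s1 l l) (s2 (d 0) (d 5))) (s3 (s2 l (d 5)) (d 5)))) (s0 (s2 (s3 (s1 l l) (s2 (d 0) l)) (s3 (s1 l l) (s1 l l))) (d 4)))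
    (Bx.mk 281475052208128 8388608 281474943156224 33554432 281475094151168 16777216 281475094151168 16777216) = true := by
  decide +kernel

open Tr in
theorem c167 : chk T0 gs0 (s1 (s1 (s0 (s0 (s2 (s3 (s2 l l) (s3 l (d 0))) (s3 (s2 l l) (s2 (s3 l (d 5)) (d 5)))) (d 4)) (d 4)) (d 4)) (d 4))
    (Bx.mk 281475068985344 8388608 281474943156224 33554432 281475077373952 33554432 281475077373952 33554432) = true := by
  decide +kernel

open Tr in
theorem c168 : chk T0 gs0 (d 4)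
    (Bx.mk 281475094151168 16777216 281474943156224 33554432 281475043819520 67108864 281475043819520 67108864) = true := by
  decide +kernel

open Tr in
theorem c169 : chk T0 gs0 (s3 (s2 (s3 (d 1) (s1 l l)) (s0 (s1 l l) (s1 l l))) (s2 (s3 (s1 l l) (s1 l (s1 l l))) (s0 (s1 l l) (s3 l l))))
    (Bx.mk 281474985099264 8388608 281474876047360 33554432 281475144482816 33554432 281474909601792 67108864) = true := by
  decide +kernel

open Tr in
theorem c170 : chk T0 gs0 (s3 (s2 (s3 (d 1) (s1 l (s1 l l))) (s0 (s1 l l) (s1 l l))) (s2 (s1 (s0 l (s3 l l)) (s0 l (s3 l l))) (s0 (s1 l l) (s1 (s3 l l) (s3 l l)))))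
    (Bx.mk 281474985099264 8388608 281474943156224 33554432 281475144482816 33554432 281474909601792 67108864) = true := by
  decide +kernel

open Tr in
theorem c171 : chk T0 gs0 (s1 (s2 (s0 (s1 l l) (s1 l l)) (s0 (s1 l l) (s1 l l))) (s0 (s2 (s1 l l) (s1 l l)) (s2 (s1 l l) (s1 l l))))
    (Bx.mk 281474985099264 8388608 281474909601792 67108864 281475211591680 33554432 281474876047360 33554432) = true := by
  decide +kernel

open Tr in
theorem c172 : chk T0 gs0 (s1 (s2 (s0 (s1 l l) (s1 l l)) (s0 (s1 l l) (s1 l l))) (s0 (s2 (s1 l l) (s1 l l)) (s2 (s1 l (s3 l l)) (s1 l l))))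
    (Bx.mk 281474985099264 8388608 281474909601792 67108864 281475211591680 33554432 281474943156224 33554432) = true := by
  decide +kernel

open Tr in
theorem c173 : chk T0 gs0 (s3 (s2 (s3 (d 1) (s1 (s1 l l) (s1 l l))) (s0 (s1 l l) (s3 (s2 (d 1) l) (s1 l l)))) (s2 (s3 (s1 (s1 l l) (s2 l l)) (s1 (s2 l l) (s2 l l))) (s0 (s3 l (s1 l l)) (s3 (s1 l l) (s1 l l)))))
    (Bx.mk 281475001876480 8388608 281474876047360 33554432 281475144482816 33554432 281474909601792 67108864) = true := by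
  decide +kernel

open Tr in
theorem c174 : chk T0 gs0 (s3 (s2 (s3 (d 1) (s1 (s1 l l) (s1 l l))) (s0 (s1 (s3 l l) (s3 l l)) (s1 (s3 l l) (s3 l l)))) (s2 (s1 (s3 (s2 l l) (s2 l l)) (s3 (s1 l l) (s2 l l))) (s0 (s1 (s3 l l) (s3 l l)) (s1 (s3 l l) (s3 l l)))))
    (Bx.mk 281475001876480 8388608 281474943156224 33554432 281475144482816 33554432 281474909601792 67108864) = true := by
  decide +kernel

open Tr in
theorem c175 : chk T0 gs0 (s3 (s2 (s0 (s1 l l) (s1 l l)) (s0 (s1 l l) (s1 l l))) (s2 (s0 (s3 l l) (s3 l (s1 l l))) (s0 (s1 l l) (s3 l l))))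
    (Bx.mk 281475001876480 8388608 281474876047360 33554432 281475211591680 33554432 281474909601792 67108864) = true := by
  decide +kernel

end D2

end Vale.Agent.Lib.P154
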