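import Vale.Agent.Lib.P154.Prog2

/-! Generated certificates. -/

namespace Vale.Agent.Lib.P154

namespace D2

open Tr in
theorem c176 : chk T0 gs0 (s3 (s2 (s0 (s1 l l) (s1 l (s3 l l))) (s0 (s1 l l) (s1 l l))) (s2 (s0 (s1 (s3 l l) (s3 l l)) (s1 (s3 l l) (s3 l l))) (s0 (s1 (s3 l l) (s3 l l)) (s1 (s3 l l) (s3 l l)))))
    (Bx.mk 281475001876480 8388608 281474943156224 33554432 281475211591680 33554432 281474909601792 67108864) = true := by
  decide +kernel

open Tr in
theorem c177 : chk T0 gs0 (s3 (s2 (s3 (d 1) (s1 (s2 l l) (s2 l l))) (s1 (s2 (s3 (d 1) l) (s3 l l)) (s0 (s3 l l) (s3 l l)))) (s2 (s3 (s1 (s2 l l) (s2 l l)) (s1 (s2 l l) (s2 (s1 l l) l))) (s3 (s1 (s2 l l) (s2 l l)) (s0 (s1 l l) (s1 l l)))))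
    (Bx.mk 281475018653696 8388608 281474876047360 33554432 281475144482816 33554432 281474909601792 67108864) = true := by
  decide +kernel

open Tr in
theorem c178 : chk T0 gs0 (s2 (s3 (d 1) (s1 (s2 (s3 (d 1) l) l) (s0 l (s1 l l)))) (s1 (s0 (s3 l l) (s3 l l)) (s0 (s3 l l) (s3 l l))))
    (Bx.mk 281475018653696 8388608 281474943156224 33554432 281475144482816 33554432 281474876047360 33554432) = true := by
  decide +kernel

open Tr in
theorem c179 : chk T0 gs0 (s2 (s1 (s3 (s2 (s1 l l) l) (s0 (s1 l l) (s1 l l))) (s3 (s0 l (s1 l l)) (s0 (s1 l l) (s1 l l)))) (s1 (s3 (s2 l l) (s0 l (s1 l l))) (s3 (s0 l l) (s0 l (s1 l l)))))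
    (Bx.mk 281475018653696 8388608 281474943156224 33554432 281475144482816 33554432 281474943156224 33554432) = true := by
  decide +kernel

open Tr in
theorem c180 : chk T0 gs0 (s3 (s2 (s0 (s3 l l) (s1 (s3 l l) (s3 l l))) (s0 (s1 l l) (s3 l (s1 l l)))) (s2 (s0 (s3 (s1 l l) (s1 l l)) (s3 (s1 l l) (s1 l l))) (s0 (s3 l (s1 l l)) (s3 (s1 l l) (s1 l l)))))
    (Bx.mk 281475018653696 8388608 281474876047360 33554432 281475211591680 33554432 281474909601792 67108864) = true := by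
  decide +kernel

open Tr in
theorem c181 : chk T0 gs0 (s2 (s1 (s0 (s3 l l) (s3 l l)) (s0 (s3 l l) (s3 l l))) (s0 (s1 (s3 l l) (s3 l l)) (s1 (s3 l l) (s3 l l))))
    (Bx.mk 281475018653696 8388608 281474943156224 33554432 281475211591680 33554432 281474876047360 33554432) = true := by
  decide +kernel

open Tr in
theorem c182 : chk T0 gs0 (s2 (s0 (s1 (s3 l l) (s3 l l)) (s1 (s3 l l) (s3 l (s1 l l)))) (s0 (s1 (s3 l l) (s3 l l)) (s1 (s3 l l) (s3 l (s1 l l)))))
    (Bx.mk 281475018653696 8388608 281474943156224 33554432 281475211591680 33554432 281474943156224 33554432) = true := by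
  decide +kernel

open Tr in
theorem c183 : chk T0 gs0 (s2 (s3 (d 1) (s1 (s2 (s3 (d 1) l) l) (s2 (s3 (d 1) l) (s1 l l)))) (s1 (s3 (s2 (d 1) l) (s2 l l)) (s3 (s2 (d 1) l) (s2 l l))))
    (Bx.mk 281475035430912 8388608 281474876047360 33554432 281475144482816 33554432 281474876047360 33554432) = true := by
  decide +kernel

open Tr in
theorem c184 : chk T0 gs0 (s2 (s3 (s1 (s2 (s1 l l) l) (s2 (s1 l l) (s1 l l))) (s1 (s2 (s1 l l) (s1 l l)) (s2 (s1 l l) (s1 l l)))) (s3 (s1 (s2 l l) (s2 (s1 l l) l)) (s1 (s2 (s1 l l) l) (s2 (s1 l l) (s1 l l)))))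
    (Bx.mk 281475035430912 8388608 281474876047360 33554432 281475144482816 33554432 281474943156224 33554432) = true := by
  decide +kernel

open Tr in
theorem c185 : chk T0 gs0 (s2 (s1 (s2 (s3 l l) (s3 l l)) (s3 (s2 l l) (s2 l l))) (s1 (s0 (s3 l l) (s3 l l)) (s0 (s3 l l) (s3 l l))))
    (Bx.mk 281475035430912 8388608 281474876047360 33554432 281475211591680 33554432 281474876047360 33554432) = true := by
  decide +kernel

open Tr in
theorem c186 : chk T0 gs0 (s2 (s3 (s1 (s2 l l) (s2 l l)) (s1 (s2 l l) (s0 l (s1 l l)))) (s3 (s0 (s1 l l) (s1 l l)) (s0 (s1 l l) (s1 l (s1 l l)))))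
    (Bx.mk 281475035430912 8388608 281474876047360 33554432 281475211591680 33554432 281474943156224 33554432) = true := by
  decide +kernel

open Tr in
theorem c187 : chk T0 gs0 (s2 (s3 (d 1) (s1 (s2 (s3 (d 1) l) (s1 l l)) (s0 (s1 l l) (s1 l l)))) (s1 (s3 (s2 (d 1) (s3 (d 1) l)) (s2 (s1 l l) l)) (s3 (s2 (d 1) (s3 (d 1) l)) (s0 (s1 l l) (s1 l l)))))
    (Bx.mk 281475035430912 8388608 281474943156224 33554432 281475144482816 33554432 281474876047360 33554432) = true := by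
  decide +kernel

open Tr in
theorem c188 : chk T0 gs0 (s1 (s3 (s2 (s1 l l) (s1 l l)) (s2 (s1 l l) (s1 l l))) (s3 (s0 (s1 l l) (s1 l l)) (s0 (s1 l l) (s1 l l))))
    (Bx.mk 281475035430912 8388608 281474943156224 33554432 281475127705600 16777216 281474943156224 33554432) = true := by
  decide +kernel

open Tr in
theorem c189 : chk T0 gs0 (s1 (s3 (s2 (s1 l l) (s1 l l)) (s0 (s1 l l) (s1 l l))) (s3 (s0 (s1 l l) (s1 l l)) (s0 (s1 l l) (s1 l l))))
    (Bx.mk 281475035430912 8388608 281474943156224 33554432 281475161260032 16777216 281474943156224 33554432) = true := by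
  decide +kernel

open Tr in
theorem c190 : chk T0 gs0 (s2 (s1 (s3 (s2 l l) (s2 l l)) (s0 (s3 l l) (s3 (s1 l l) (s1 l l)))) (s1 (s0 (s3 l l) (s3 l l)) (s0 (s3 l l) (s3 l (s1 l l)))))
    (Bx.mk 281475035430912 8388608 281474943156224 33554432 281475211591680 33554432 281474876047360 33554432) = true := by
  decide +kernel

open Tr in
theorem c191 : chk T0 gs0 (s2 (s1 (s3 (s0 l (s1 l l)) (s0 (s1 l l) (s1 l l))) (s3 (s0 (s1 l l) (s1 l l)) (s0 (s1 l l) (s2 l l)))) (s1 (s0 (s3 l (s1 l l)) (s3 (s1 l l) (s1 l l))) (s0 (s3 (s1 l l) (s1 l l)) (s3 (s1 l l) (s2 l l)))))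
    (Bx.mk 281475035430912 8388608 281474943156224 33554432 281475211591680 33554432 281474943156224 33554432) = true := by
  decide +kernel

end D2

end Vale.Agent.Lib.P154
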