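import Vale.Agent.Lib.P154.Prog2

/-! Generated certificates. -/

namespace Vale.Agent.Lib.P154

namespace D2

open Tr in
theorem c192 : chk T0 gs0 (s2 (s3 (d 1) (s1 (s2 (s3 (d 1) l) (s1 l l)) (s2 (s3 (d 1) l) (s1 l l)))) (s3 (s2 (d 1) (s3 (d 1) (s1 l l))) (s1 (s2 (s1 l l) l) (s2 (s1 l l) (s1 l l)))))
    (Bx.mk 281475052208128 8388608 281474876047360 33554432 281475144482816 33554432 281474876047360 33554432) = true := by
  decide +kernel

open Tr in
theorem c193 : chk T0 gs0 (s2 (s3 (d 1) (s1 (s2 (s3 (d 1) (s1 l l)) (s3 l l)) (s2 (s3 (d 1) (s1 l l)) (s0 (s1 l l) (s1 l l))))) (s3 (s2 (d 1) (s3 (d 1) (s2 (d 1) (s1 l l)))) (s1 (s2 (s1 l l) (s1 l l)) (s2 (s0 l (s1 l l)) (s3 l (s1 l l))))))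
    (Bx.mk 281475068985344 8388608 281474876047360 33554432 281475144482816 33554432 281474876047360 33554432) = true := by
  decide +kernel

open Tr in
theorem c194 : chk T0 gs0 (s1 (s2 (s3 (d 1) (s0 (s2 (s3 (d 1) (s1 l l)) (s3 (s2 (d 1) l) (s1 l l))) (s1 (s2 (s3 (d 1) (s0 l l)) (s3 (s2 (d 1) l) l)) (d 4)))) (s3 (s2 (d 1) (s3 (d 1) (s2 (d 1) (s3 (d 1) (s0 l l))))) (s0 (s2 (s3 (s1 l l) (s1 l l)) (s3 (s1 l l) (s1 l l))) (s1 (s2 (s3 l l) (s3 l (s0 l l))) (d 4))))) (s0 (s1 (s0 (s1 (s2 (s3 (d 1) (s2 l l)) (s0 (s3 l l) (d 4))) (d 4)) (d 4)) (d 4)) (d 4)))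
    (Bx.mk 281475094151168 16777216 281474876047360 33554432 281475144482816 33554432 281474876047360 33554432) = true := by
  decide +kernel

open Tr in
theorem c195 : chk T0 gs0 (s3 (s1 (s2 (s1 l l) (s1 l l)) (s2 (s1 l (s3 l l)) (s1 l l))) (s1 (s2 (s3 l l) (s1 l l)) (s2 (s0 l (s1 l l)) (s0 l (s1 l l)))))
    (Bx.mk 281475052208128 8388608 281474876047360 33554432 281475127705600 16777216 281474943156224 33554432) = true := by
  decide +kernel

open Tr in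
theorem c196 : chk T0 gs0 (s3 (s1 (s2 (s1 l l) (s1 l l)) (s2 (s1 l l) (s1 l l))) (s1 (s2 (s1 l l) (s1 l l)) (s2 (s0 l l) (s0 l l))))
    (Bx.mk 281475052208128 8388608 281474876047360 33554432 281475161260032 16777216 281474943156224 33554432) = true := by
  decide +kernel

open Tr in
theorem c197 : chk T0 gs0 (s2 (s3 (s2 (s3 (s1 l l) (s1 l l)) (s0 l (s1 l l))) (s2 (s3 (s1 l l) (s1 l l)) (s3 (s1 l l) (s1 l l)))) (s3 (s2 (s3 l l) (s3 l l)) (s2 (s0 l (s1 l l)) (s0 l (s1 l l)))))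
    (Bx.mk 281475068985344 8388608 281474859270144 16777216 281475144482816 33554432 281474943156224 33554432) = true := by
  decide +kernel

open Tr in
theorem c198 : chk T0 gs0 (s2 (s3 (s2 (s3 (s1 l l) (s1 l l)) (s3 (s1 l l) (s1 l l))) (s2 (s3 (s1 l l) (s1 l l)) (s3 (s1 l l) (s1 l l)))) (s3 (s2 (s0 l (s1 l l)) (s0 l (s1 l l))) (s0 (s2 (s1 l l) (s1 l l)) (s2 (s1 l l) (s1 l l)))))
    (Bx.mk 281475068985344 8388608 281474892824576 16777216 281475144482816 33554432 281474943156224 33554432) = true := by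
  decide +kernel

open Tr in
theorem c199 : chk T0 gs0 (s0 (s2 (s3 (s1 l l) (s1 l l)) (s3 (s1 l l) (s1 l l))) (s1 (s2 (s3 (s0 l l) (s0 l l)) (s3 (s0 l l) (s0 l l))) (d 4)))
    (Bx.mk 281475094151168 16777216 281474859270144 16777216 281475127705600 16777216 281474926379008 16777216) = true := by
  decide +kernel

open Tr in
theorem c200 : chk T0 gs0 (s0 (s0 (s2 (s3 l l) (s1 l l)) (s2 (s3 l l) (s3 l l))) (s1 (s2 (s0 (s3 l l) (s1 (s0 l (d 4)) (d 4))) (s3 (s0 l (s1 l (d 4))) (s0 l (s0 l (d 4))))) (d 4)))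
    (Bx.mk 281475094151168 16777216 281474859270144 16777216 281475127705600 16777216 281474959933440 16777216) = true := by
  decide +kernel

open Tr in
theorem c201 : chk T0 gs0 (s3 (s0 (s0 (s2 (s1 l l) (s1 l l)) (s2 (s1 l l) (s3 l l))) (s1 (s2 (s3 (s0 l l) (s0 l (s1 l (d 4)))) (s3 (s0 l (s0 l (d 4))) (s0 (s1 l l) (s1 (s2 l (d 5)) (d 4))))) (d 4))) (s0 (s1 (s2 (s3 l (s0 l l)) (s0 l (s3 l (d 5)))) (s2 (s0 l (s0 l (d 4))) (s0 l (s3 l (d 5))))) (s1 (s2 (s3 (s0 l (s1 (s2 l (d 5)) (d 4))) (d 5)) (d 5)) (d 4))))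
    (Bx.mk 281475094151168 16777216 281474859270144 16777216 281475161260032 16777216 281474943156224 33554432) = true := by
  decide +kernel

open Tr in
theorem c202 : chk T0 gs0 (s0 (s1 (s0 (s1 (s0 (s1 (s0 (s2 (s3 l l) (s3 l l)) (d 4)) (d 4)) (d 4)) (d 4)) (d 4)) (d 4)) (d 4))
    (Bx.mk 281475094151168 16777216 281474892824576 16777216 281475144482816 33554432 281474943156224 33554432) = true := by
  decide +kernel

open Tr in
theorem c203 : chk T0 gs0 (s0 (s2 (s3 (s2 l l) (s2 l l)) (s3 (s2 l l) (s0 l (s1 l l)))) (s2 (s3 (s2 (s3 (d 1) l) (s1 l l)) (s2 (s1 l l) (s1 l l))) (s3 (s2 (s1 l l) (s1 l l)) (s0 (s1 l l) (s2 l l)))))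
    (Bx.mk 281475060596736 16777216 281474859270144 16777216 281475211591680 33554432 281474876047360 33554432) = true := by
  decide +kernel

open Tr in
theorem c204 : chk T0 gs0 (s0 (s3 (s2 (s3 (d 1) l) (s1 l l)) (s2 (s1 l l) (s1 l l))) (s3 (s2 (s3 (d 1) l) (s1 l l)) (s2 (s0 l l) (s0 l l))))
    (Bx.mk 281475060596736 16777216 281474892824576 16777216 281475194814464 16777216 281474876047360 33554432) = true := by
  decide +kernel

open Tr in
theorem c205 : chk T0 gs0 (s0 (s3 (s0 l (s1 l l)) (s0 (s1 l l) (s1 l l))) (s3 (s0 (s1 l l) (s2 l l)) (s0 (s2 l l) (s2 l (s1 l l)))))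
    (Bx.mk 281475060596736 16777216 281474892824576 16777216 281475228368896 16777216 281474876047360 33554432) = true := by
  decide +kernel

open Tr in
theorem c206 : chk T0 gs0 (s3 (s0 (s0 (s2 l l) (s2 (s3 (d 1) l) (s1 l l))) (s1 (s2 (s3 (d 1) (s0 l l)) (s0 l (s1 (s0 l (d 4)) (d 4)))) (d 4))) (s0 (s1 (s0 (s2 l l) (s2 l l)) (s0 (s2 l l) (s0 (s1 l (d 4)) (d 4)))) (s1 (s2 (s3 (s0 l (s1 l (d 4))) (s0 l (s0 l (d 4)))) (s3 (s0 l (s0 l (d 4))) (s0 (s2 l l) (s1 (s0 l (d 4)) (d 4))))) (d 4))))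
    (Bx.mk 281475094151168 16777216 281474859270144 16777216 281475194814464 16777216 281474876047360 33554432) = true := by
  decide +kernel

open Tr in
theorem c207 : chk T0 gs0 (s0 (s1 (s0 (s2 l l) (s2 l (s3 l l))) (s0 (s2 l l) (s1 (s0 l (d 4)) (d 4)))) (s1 (s2 (s3 (s0 l (s1 l (d 4))) (s0 l (s0 l (d 4)))) (s3 (s0 l (s1 (s0 l (d 4)) (d 4))) (s0 (s1 l (s0 l (d 4))) (s1 (s0 l (d 4)) (d 4))))) (d 4)))
    (Bx.mk 281475094151168 16777216 281474859270144 16777216 281475228368896 16777216 281474859270144 16777216) = true := by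
  decide +kernel

end D2

end Vale.Agent.Lib.P154
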