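import Vale.Agent.Lib.P154.Prog2

/-! Generated certificates. -/

namespace Vale.Agent.Lib.P154

namespace D2

open Tr in
theorem c208 : chk T0 gs0 (s0 (s1 (s2 (s0 l (s3 l l)) (s0 l (s3 l (d 5)))) (s2 (s0 l (s0 l (d 4))) (s3 (s0 l (s1 l (d 4))) (s0 l (d 5))))) (s1 (s2 (s3 (s0 (s0 l l) (s1 (s0 l (d 4)) (d 4))) (d 5)) (d 5)) (d 4)))
    (Bx.mk 281475094151168 16777216 281474859270144 16777216 281475228368896 16777216 281474892824576 16777216) = true := by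
  decide +kernel

open Tr in
theorem c209 : chk T0 gs0 (s0 (s1 (s0 (s1 (s0 (s1 (s0 (s2 (s3 l l) (s3 l l)) (d 4)) (d 4)) (d 4)) (d 4)) (d 4)) (d 4)) (d 4))
    (Bx.mk 281475094151168 16777216 281474892824576 16777216 281475211591680 33554432 281474876047360 33554432) = true := by
  decide +kernel

open Tr in
theorem c210 : chk T0 gs0 (s0 (s3 (s2 (s1 l l) (s1 l l)) (s2 (s1 l l) (s1 l l))) (s0 (s3 (s2 l l) (s2 l l)) (s3 (s2 l l) (s2 (s1 l l) (s3 l (d 5))))))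
    (Bx.mk 281475060596736 16777216 281474859270144 16777216 281475194814464 16777216 281474943156224 33554432) = true := by
  decide +kernel

open Tr in
theorem c211 : chk T0 gs0 (s3 (s0 (s0 (s1 l l) (s1 l l)) (s0 (s2 l l) (s2 l (s3 l (d 5))))) (s0 (s0 (s1 l l) (s2 l l)) (s0 (s2 l (d 5)) (d 5))))
    (Bx.mk 281475060596736 16777216 281474859270144 16777216 281475228368896 16777216 281474943156224 33554432) = true := by
  decide +kernel

open Tr in
theorem c212 : chk T0 gs0 (s0 (s3 (s2 (s1 l l) (s1 l l)) (s0 (s1 l l) (s2 l l))) (s3 (s0 (s2 l l) (s2 (s1 l l) (s1 l l))) (s0 (s2 (s1 l l) (s1 l l)) (s2 (s1 l l) (s3 l (d 5))))))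
    (Bx.mk 281475060596736 16777216 281474892824576 16777216 281475194814464 16777216 281474943156224 33554432) = true := by
  decide +kernel

open Tr in
theorem c213 : chk T0 gs0 (s3 (s0 (s0 (s1 l l) (s1 l l)) (s0 (s2 l l) (s0 (s2 l l) (s2 l (d 5))))) (s0 (s0 (s1 l l) (s2 l l)) (s2 (s0 (s3 l (d 5)) (d 5)) (d 5))))
    (Bx.mk 281475060596736 16777216 281474892824576 16777216 281475228368896 16777216 281474943156224 33554432) = true := by
  decide +kernel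

open Tr in
theorem c214 : chk T0 gs0 (s1 (s2 (s3 (s0 (s1 (s2 (s0 l (s3 l l)) (s0 l (s3 l (d 5)))) (s2 (s0 l (s0 l (d 4))) (s0 l (s3 (s1 l (d 4)) (d 5))))) (s1 (s2 (s3 (s0 (s1 l l) (s1 (s0 l (d 4)) (d 4))) (d 5)) (d 5)) (d 4))) (s0 (s2 (s3 (s0 l (d 5)) (d 5)) (d 5)) (d 5))) (s3 (s0 (s2 (s3 (s0 (s2 l (d 5)) (d 5)) (d 5)) (d 5)) (d 5)) (d 5))) (s0 (s1 (s0 (s1 (s0 (s1 (s0 (s1 (s0 (s1 (s2 (s3 l l) (s3 l (d 5))) (d 4)) (d 4)) (d 4)) (d 4)) (d 4)) (d 4)) (d 4)) (d 4)) (d 4)) (d 4)))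
    (Bx.mk 281475094151168 16777216 281474876047360 33554432 281475211591680 33554432 281474943156224 33554432) = true := by
  decide +kernel

open Tr in
theorem c215 : chk T0 gs0 (s0 (s2 (s3 (d 1) (s1 (s2 (s1 l l) (s1 l l)) (s0 (s1 l l) (d 4)))) (s1 (s3 (s2 (d 1) (s3 (d 1) l)) (s2 (s1 l l) (s1 l l))) (s0 (s3 (s2 (d 1) l) (s1 l l)) (d 4)))) (s1 (s0 (s1 (s2 (s3 (d 1) (s2 l l)) (s0 (s3 l l) (d 4))) (d 4)) (d 4)) (d 4)))
    (Bx.mk 281475060596736 16777216 281474943156224 33554432 281475144482816 33554432 281474876047360 33554432) = true := by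
  decide +kernel

open Tr in
theorem c216 : chk T0 gs0 (s0 (s2 (s3 (s2 (s1 (s3 l l) l) (s1 l l)) (s2 (s0 (s1 l l) (s1 l l)) (s0 l (s1 l l)))) (s3 (s2 (s1 l l) (s1 l l)) (s0 (s2 l l) (s2 (s1 l l) (s1 l l))))) (s1 (s0 (s0 (s2 (s1 (s3 l l) (d 4)) (s3 l (s1 l (d 4)))) (d 4)) (d 4)) (d 4)))
    (Bx.mk 281475060596736 16777216 281474926379008 16777216 281475144482816 33554432 281474943156224 33554432) = true := by
  decide +kernel

open Tr in
theorem c217 : chk T0 gs0 (s0 (s0 (s2 (s3 (s1 l l) (s2 (s1 l l) (s1 l l))) (s3 (s1 l l) (s2 (s1 l l) (s1 l l)))) (d 4)) (d 4))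
    (Bx.mk 281475060596736 16777216 281474959933440 16777216 281475144482816 33554432 281474943156224 33554432) = true := by
  decide +kernel

open Tr in
theorem c218 : chk T0 gs0 (s1 (s2 (s0 (s3 (s2 (s3 (d 1) l) (s1 l l)) (s2 (s1 l l) (s1 l l))) (s0 (s1 (s0 (s3 l l) (d 4)) (d 4)) (d 4))) (s0 (s3 (s0 (s1 l l) (s1 l l)) (s0 (s1 l l) (s1 l l))) (s1 (s0 (s0 (s3 l l) (d 4)) (d 4)) (d 4)))) (s0 (s0 (s2 (s3 (s1 l l) (s1 l l)) (s3 (s1 l l) (s1 l l))) (d 4)) (d 4)))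
    (Bx.mk 281475060596736 16777216 281474943156224 33554432 281475211591680 33554432 281474876047360 33554432) = true := by
  decide +kernel

open Tr in
theorem c219 : chk T0 gs0 (s2 (s0 (s3 (s0 (s1 l l) (s2 l l)) (s0 (s2 l l) (s2 (s1 l l) (s1 l l)))) (s1 (s0 (s0 (s3 l (s1 l (d 4))) (d 4)) (d 4)) (d 4))) (s3 (s0 (s0 (s1 l l) (s2 l l)) (s1 (s0 (s0 l (d 4)) (d 4)) (d 4))) (s0 (s0 (s2 l l) (s2 (s1 l l) (s3 l (d 5)))) (s1 (s2 (s0 l (d 4)) (d 5)) (d 4)))))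
    (Bx.mk 281475060596736 16777216 281474926379008 16777216 281475211591680 33554432 281474943156224 33554432) = true := by
  decide +kernel

open Tr in
theorem c220 : chk T0 gs0 (s0 (s0 (s2 (s3 (s1 l l) (s2 (s1 l l) (s1 l l))) (s3 (s2 l l) (s2 (s1 l l) (s1 l l)))) (d 4)) (d 4))
    (Bx.mk 281475060596736 16777216 281474959933440 16777216 281475211591680 33554432 281474943156224 33554432) = true := by
  decide +kernel

open Tr in
theorem c221 : chk T0 gs0 (d 4)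
    (Bx.mk 281475094151168 16777216 281474943156224 33554432 281475178037248 67108864 281474909601792 67108864) = true := by
  decide +kernel

open Tr in
theorem c222 : chk T0 gs0 (s1 (s2 (s3 (s1 l (s1 l l)) (s0 l (s1 l l))) (s0 (s3 l l) (s3 l (s1 l l)))) (s2 (s3 (s1 (s1 l l) (s1 l l)) (s1 (s1 l l) (s2 l l))) (s0 (s3 l (s1 l l)) (s3 (s1 l l) (s1 l l)))))
    (Bx.mk 281474985099264 8388608 281474909601792 67108864 281475144482816 33554432 281475010265088 33554432) = true := by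
  decide +kernel

open Tr in
theorem c223 : chk T0 gs0 (s1 (s2 (s3 (s0 l (s1 l l)) (s0 l (s1 l l))) (s3 (s0 l (s1 l l)) (s2 (s3 l (d 3)) (d 3)))) (s0 (s2 (s3 (s1 l l) (s1 l l)) (s3 (s1 l l) (s2 l (d 3)))) (s2 (s3 (s1 l l) (s1 l l)) (s3 (s1 l l) (s1 l l)))))
    (Bx.mk 281474985099264 8388608 281474909601792 67108864 281475144482816 33554432 281475077373952 33554432) = true := by
  decide +kernel

end D2

end Vale.Agent.Lib.P154
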