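import Vale.Agent.Lib.P154.Prog2

/-! Generated certificates. -/

namespace Vale.Agent.Lib.P154

namespace D2

open Tr in
theorem c224 : chk T0 gs0 (s3 (s1 (s0 (s2 (s1 l l) (s1 l l)) (s2 (s3 l l) (s3 l l))) (s0 (s2 (s3 l l) (s1 l l)) (s2 (s3 (s1 l l) (s1 l l)) (s3 (s1 l l) (s2 l (d 3)))))) (s3 (s2 (s2 (s3 (s1 l (s2 l (d 3))) (d 3)) (d 3)) (d 3)) (d 3)))
    (Bx.mk 281474985099264 8388608 281474909601792 67108864 281475211591680 33554432 281475043819520 67108864) = true := by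
  decide +kernel

open Tr in
theorem c225 : chk T0 gs0 (s2 (s3 (s1 (s2 l l) (s2 l l)) (s0 (s1 l l) (s1 l (s1 l l)))) (s3 (s0 (s1 l l) (s1 l l)) (s0 (s1 l l) (s1 l l))))
    (Bx.mk 281475001876480 8388608 281474876047360 33554432 281475144482816 33554432 281475010265088 33554432) = true := by
  decide +kernel

open Tr in
theorem c226 : chk T0 gs0 (s2 (s3 (s1 (s0 l l) (s0 l (s1 l l))) (s1 (s0 l (s1 l l)) (s0 l (s1 l l)))) (s0 (s3 (s1 l l) (s1 l l)) (s3 (s1 l l) (s1 (s1 l l) (s1 l l)))))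
    (Bx.mk 281475001876480 8388608 281474943156224 33554432 281475144482816 33554432 281475010265088 33554432) = true := by
  decide +kernel

open Tr in
theorem c227 : chk T0 gs0 (s2 (s3 (s0 (s1 l l) (s1 (s1 l l) (s1 l l))) (s0 (s1 l l) (s1 (s1 l l) (s1 l l)))) (s3 (s0 (s1 l l) (s1 l (s1 l l))) (s2 (s3 (s1 l l) (d 3)) (d 3))))
    (Bx.mk 281475001876480 8388608 281474876047360 33554432 281475144482816 33554432 281475077373952 33554432) = true := by
  decide +kernel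

open Tr in
theorem c228 : chk T0 gs0 (s2 (s3 (s0 (s1 l (s1 l l)) (s1 (s1 l l) (s2 l l))) (s0 (s1 (s1 l l) (s1 l l)) (s1 (s2 l l) (s2 (s1 l l) (s1 l l))))) (s0 (s3 (s1 l (s1 l l)) (s2 (s3 l (d 3)) (d 3))) (s3 (s1 (s1 l l) (s2 l l)) (s2 (s3 (s2 l (d 3)) (d 3)) (d 3)))))
    (Bx.mk 281475001876480 8388608 281474943156224 33554432 281475144482816 33554432 281475077373952 33554432) = true := by
  decide +kernel

open Tr in
theorem c229 : chk T0 gs0 (s1 (s2 (s0 (s3 (s1 l l) (s1 l l)) (s3 (s1 l l) (s1 l l))) (s0 (s3 l (s2 l (d 3))) (s3 (s1 l l) (s2 l (d 3))))) (s0 (s2 (s3 (s1 l l) (s1 l l)) (s3 (s1 l l) (s2 l (d 3)))) (s2 (s3 (s1 l l) (s1 (s1 l l) (s1 l l))) (s3 (s1 l l) (s2 (s3 l (d 3)) (d 3))))))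
    (Bx.mk 281475001876480 8388608 281474909601792 67108864 281475211591680 33554432 281475010265088 33554432) = true := by
  decide +kernel

open Tr in
theorem c230 : chk T0 gs0 (s3 (s2 (s2 (s3 (s1 (s1 l l) (s2 (s1 l l) (d 3))) (d 3)) (d 3)) (d 3)) (d 3))
    (Bx.mk 281475001876480 8388608 281474909601792 67108864 281475211591680 33554432 281475077373952 33554432) = true := by
  decide +kernel

open Tr in
theorem c231 : chk T0 gs0 (s2 (s3 (s1 (s2 (s1 l l) l) (s2 (s1 l l) (s1 l l))) (s1 (s2 (s1 l l) (s1 l l)) (s0 (s1 l l) (s2 l l)))) (s3 (s0 (s1 l l) (s1 l (s1 l l))) (s0 (s1 (s1 l l) (s1 l l)) (s1 (s1 l l) (s1 l l)))))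
    (Bx.mk 281475018653696 8388608 281474876047360 33554432 281475144482816 33554432 281475010265088 33554432) = true := by
  decide +kernel

open Tr in
theorem c232 : chk T0 gs0 (s1 (s3 (s0 (s1 l l) (s1 l l)) (s0 (s1 l l) (s2 l l))) (s3 (s0 (s1 l l) (s1 l l)) (s0 (s1 l l) (s2 (s1 l l) (s1 l l)))))
    (Bx.mk 281475018653696 8388608 281474943156224 33554432 281475127705600 16777216 281475010265088 33554432) = true := by
  decide +kernel

open Tr in
theorem c233 : chk T0 gs0 (s3 (s1 (s0 (s1 l l) (s1 l l)) (s0 (s1 l l) (s1 l l))) (s0 (s1 (s1 l l) (s2 l l)) (s1 (s2 l l) (s2 l l))))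
    (Bx.mk 281475018653696 8388608 281474943156224 33554432 281475161260032 16777216 281475010265088 33554432) = true := by
  decide +kernel

open Tr in
theorem c234 : chk T0 gs0 (s2 (s3 (s1 (s0 (s1 l l) (s2 l l)) (s0 (s2 l l) (s2 l l))) (s0 (s1 (s1 l l) (s2 l l)) (s1 (s2 l l) (s2 (s1 l l) l)))) (s3 (s0 (s1 (s1 l l) (s1 l l)) (s1 (s1 l l) (s2 l l))) (s2 (s3 (s0 l l) (d 3)) (d 3))))
    (Bx.mk 281475018653696 8388608 281474876047360 33554432 281475144482816 33554432 281475077373952 33554432) = true := by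
  decide +kernel

open Tr in
theorem c235 : chk T0 gs0 (s3 (s1 (s0 (s2 l l) (s2 (s1 l l) (s1 l l))) (s0 (s2 (s1 l l) (s1 l l)) (s2 (s1 l l) (s1 l l)))) (s0 (s1 (s2 (s1 l l) (s1 l l)) (s2 (s1 l l) (s1 l l))) (s1 (s2 (s1 l l) (s1 l l)) (s2 (s3 l l) (s3 l l)))))
    (Bx.mk 281475018653696 8388608 281474943156224 33554432 281475127705600 16777216 281475077373952 33554432) = true := by
  decide +kernel

open Tr in
theorem c236 : chk T0 gs0 (s3 (s0 (s1 (s2 l l) (s2 (s1 l l) (s1 l l))) (s1 (s2 (s1 l l) (s1 l l)) (s2 (s1 l l) (s1 l l)))) (s2 (s3 (s2 (s3 (s0 l (s2 l (d 3))) (d 3)) (d 3)) (d 3)) (d 3)))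
    (Bx.mk 281475018653696 8388608 281474943156224 33554432 281475161260032 16777216 281475077373952 33554432) = true := by
  decide +kernel

open Tr in
theorem c237 : chk T0 gs0 (s2 (s3 (s0 (s1 l l) (s1 l (s1 l l))) (s0 (s1 l (s1 l l)) (s1 (s1 l l) (s1 l l)))) (s0 (s3 (s1 l l) (s2 l (d 3))) (s3 (s1 l l) (s2 (s3 l (d 3)) (d 3)))))
    (Bx.mk 281475018653696 8388608 281474876047360 33554432 281475211591680 33554432 281475010265088 33554432) = true := by
  decide +kernel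

open Tr in
theorem c238 : chk T0 gs0 (s2 (s0 (s3 (s1 l (s1 l l)) (s1 (s1 l l) (s2 l l))) (s3 (s1 (s1 l l) (s1 l l)) (s1 (s2 l l) (s2 l l)))) (s0 (s3 (s1 l (s1 l l)) (s2 (s3 l (d 3)) (d 3))) (s3 (s1 (s1 l l) (s1 l l)) (s2 (s1 l l) (d 3)))))
    (Bx.mk 281475018653696 8388608 281474943156224 33554432 281475211591680 33554432 281475010265088 33554432) = true := by
  decide +kernel

open Tr in
theorem c239 : chk T0 gs0 (s3 (s2 (s2 (s3 (s1 (s1 l l) (s2 (s3 (s1 l l) (d 3)) (d 3))) (d 3)) (d 3)) (d 3)) (d 3))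
    (Bx.mk 281475018653696 8388608 281474909601792 67108864 281475211591680 33554432 281475077373952 33554432) = true := by
  decide +kernel

end D2

end Vale.Agent.Lib.P154
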