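import Vale.Agent.Lib.P154.Prog2

/-! Generated certificates. -/

namespace Vale.Agent.Lib.P154

namespace D2

open Tr in
theorem c240 : chk T0 gs0 (s3 (s1 (s2 (s1 l l) (s1 l l)) (s2 (s0 l l) (s3 l l))) (s1 (s2 (s3 l l) (s3 l l)) (s2 (s0 l (s1 l l)) (s0 l (s1 l l)))))
    (Bx.mk 281475035430912 8388608 281474876047360 33554432 281475127705600 16777216 281475010265088 33554432) = true := by
  decide +kernel

open Tr in
theorem c241 : chk T0 gs0 (s3 (s1 (s2 (s1 l l) (s1 l l)) (s0 (s1 l l) (s2 l l))) (s1 (s0 (s2 l l) (s2 l l)) (s0 (s2 l l) (s2 l l))))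
    (Bx.mk 281475035430912 8388608 281474876047360 33554432 281475161260032 16777216 281475010265088 33554432) = true := by
  decide +kernel

open Tr in
theorem c242 : chk T0 gs0 (s1 (s3 (s0 (s2 l l) (s2 (s1 l l) l)) (s0 (s2 (s1 l l) (s1 l l)) (s2 (s1 l l) (s1 l l)))) (s3 (s0 (s2 l l) (s2 (s1 l l) (s1 l l))) (s0 (s2 (s1 l l) (s1 l l)) (s2 (s1 l l) (s1 l l)))))
    (Bx.mk 281475035430912 8388608 281474943156224 33554432 281475127705600 16777216 281475010265088 33554432) = true := by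
  decide +kernel

open Tr in
theorem c243 : chk T0 gs0 (s3 (s1 (s0 (s1 l l) (s2 l l)) (s0 (s2 l l) (s2 (s1 l l) (s1 l l)))) (s1 (s0 (s2 l l) (s2 (s1 l l) (s1 l l))) (s0 (s2 (s1 l l) (s1 l l)) (s2 (s1 l l) (s1 l l)))))
    (Bx.mk 281475035430912 8388608 281474943156224 33554432 281475161260032 16777216 281475010265088 33554432) = true := by
  decide +kernel

open Tr in
theorem c244 : chk T0 gs0 (s3 (s1 (s0 (s2 l l) (s2 (s1 l l) l)) (s0 (s2 (s1 l l) (s1 l l)) (s2 (s1 l l) (s1 l l)))) (s1 (s0 (s2 l l) (s2 (s1 l l) (s1 l l))) (s0 (s2 (s1 l l) (s1 l l)) (s2 (s1 l l) (s1 l l)))))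
    (Bx.mk 281475035430912 8388608 281474876047360 33554432 281475127705600 16777216 281475077373952 33554432) = true := by
  decide +kernel

open Tr in
theorem c245 : chk T0 gs0 (s3 (s1 (s0 (s2 l l) (s2 l l)) (s0 (s2 l l) (s2 (s1 l l) (s1 l l)))) (s2 (s3 (s2 (s1 l l) (d 3)) (d 3)) (d 3)))
    (Bx.mk 281475035430912 8388608 281474876047360 33554432 281475161260032 16777216 281475077373952 33554432) = true := by
  decide +kernel

open Tr in
theorem c246 : chk T0 gs0 (s1 (s0 (s2 (s1 l l) (s1 l l)) (s2 (s1 l l) (s1 l l))) (s0 (s2 (s1 l l) (s1 l l)) (s2 (s3 l (s1 l l)) (s3 l (s1 l l)))))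
    (Bx.mk 281475035430912 8388608 281474943156224 33554432 281475127705600 16777216 281475060596736 16777216) = true := by
  decide +kernel

open Tr in
theorem c247 : chk T0 gs0 (s1 (s0 (s2 (s1 l l) (s1 l l)) (s2 (s3 l l) (s3 l l))) (s0 (s2 (s3 l (s1 l l)) (s3 l (s2 l (d 3)))) (s2 (s3 (s1 l l) (s1 l l)) (s3 (s1 l l) (s2 l (d 3))))))
    (Bx.mk 281475035430912 8388608 281474943156224 33554432 281475127705600 16777216 281475094151168 16777216) = true := by
  decide +kernel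

open Tr in
theorem c248 : chk T0 gs0 (s3 (s1 (s0 (s2 (s1 l l) (s1 l l)) (s2 (s1 l l) (s1 l l))) (s0 (s2 (s1 l l) (s3 l l)) (s2 (s3 l (s1 l l)) (s3 (s1 l l) (s2 l (d 3)))))) (s2 (s3 (s2 (s3 (s1 l (s1 l l)) (d 3)) (d 3)) (d 3)) (d 3)))
    (Bx.mk 281475035430912 8388608 281474943156224 33554432 281475161260032 16777216 281475077373952 33554432) = true := by
  decide +kernel

open Tr in
theorem c249 : chk T0 gs0 (s1 (s2 (s3 (s1 (s1 l l) (s1 l l)) (s1 (s1 l l) (s2 l l))) (s3 (s1 l (s1 l l)) (s2 (s3 l (d 3)) (d 3)))) (s2 (s3 (s1 (s1 l l) (s2 l l)) (s1 (s2 l l) (s2 (s1 l l) (s1 l l)))) (s3 (s1 (s1 l l) (s2 l l)) (s2 (s3 (s1 l l) (d 3)) (d 3)))))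
    (Bx.mk 281475031236608 4194304 281474909601792 67108864 281475211591680 33554432 281475010265088 33554432) = true := by
  decide +kernel

open Tr in
theorem c250 : chk T0 gs0 (s3 (s2 (s1 (s2 (s3 l (d 3)) (d 3)) (s2 (s3 (s1 l l) (d 3)) (d 3))) (d 3)) (d 3))
    (Bx.mk 281475031236608 4194304 281474909601792 67108864 281475211591680 33554432 281475077373952 33554432) = true := by
  decide +kernel

open Tr in
theorem c251 : chk T0 gs0 (s2 (s3 (s1 (s1 l l) (s1 l l)) (s1 (s2 l l) (s2 l l))) (s3 (s1 (s1 l l) (s1 l l)) (s2 (s3 l (d 3)) (d 3))))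
    (Bx.mk 281475039625216 4194304 281474876047360 33554432 281475211591680 33554432 281475010265088 33554432) = true := by
  decide +kernel

open Tr in
theorem c252 : chk T0 gs0 (s2 (s3 (s1 (s2 l l) (s2 (s1 l l) (s1 l l))) (s1 (s2 (s1 l l) (s1 l l)) (s2 (s1 l l) (s1 l l)))) (s3 (s1 (s2 l l) (s2 (s1 l l) (s1 l l))) (s2 (s3 (s1 l l) (d 3)) (d 3))))
    (Bx.mk 281475039625216 4194304 281474943156224 33554432 281475211591680 33554432 281475010265088 33554432) = true := by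
  decide +kernel

open Tr in
theorem c253 : chk T0 gs0 (s3 (s2 (s1 (s2 (s3 (s2 l (d 3)) (d 3)) (d 3)) (s2 (s3 (s2 (s1 l l) (d 3)) (d 3)) (d 3))) (d 3)) (d 3))
    (Bx.mk 281475039625216 4194304 281474909601792 67108864 281475211591680 33554432 281475077373952 33554432) = true := by
  decide +kernel

open Tr in
theorem c254 : chk T0 gs0 (s0 (s3 (s2 (s0 l (s1 l l)) (s0 l (s1 l l))) (s2 (s3 (s1 l l) (s1 l l)) (s0 (s1 l l) (s1 l l)))) (s3 (s2 (s3 (s1 l l) (s1 l l)) (s3 (s1 l l) (s1 l l))) (s0 (s2 (s1 l l) (s1 l l)) (s2 (s3 l l) (s3 l (d 5))))))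
    (Bx.mk 281475060596736 16777216 281474859270144 16777216 281475127705600 16777216 281475010265088 33554432) = true := by
  decide +kernel

open Tr in
theorem c255 : chk T0 gs0 (s0 (s3 (s2 (s0 l l) (s3 l l)) (s2 (s0 l (s1 l l)) (s0 l (s3 l (d 5))))) (s3 (s0 (s2 (s1 l l) (s1 l l)) (s2 (s1 l l) (s3 l (d 5)))) (s0 (s2 (s3 l (d 5)) (d 5)) (d 5))))
    (Bx.mk 281475060596736 16777216 281474859270144 16777216 281475161260032 16777216 281475010265088 33554432) = true := by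
  decide +kernel

end D2

end Vale.Agent.Lib.P154
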