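import Vale.Agent.Lib.P154.Prog2

/-! Generated certificates. -/

namespace Vale.Agent.Lib.P154

namespace D2

open Tr in
theorem c256 : chk T0 gs0 (s3 (s2 (s0 (s1 l l) (s1 l l)) (s0 (s1 l l) (s1 l l))) (s2 (s0 (s1 l l) (s1 l l)) (s0 (s1 l l) (s1 l l))))
    (Bx.mk 281475052208128 8388608 281474892824576 16777216 281475127705600 16777216 281475010265088 33554432) = true := by
  decide +kernel

open Tr in
theorem c257 : chk T0 gs0 (s0 (s3 (s2 (s1 l l) (s1 l l)) (s2 (s3 l l) (s3 l l))) (s3 (s2 (s3 l l) (s3 l l)) (s2 (s3 (s1 l l) (s2 l (d 5))) (s3 (s2 l (d 5)) (d 5)))))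
    (Bx.mk 281475068985344 8388608 281474892824576 16777216 281475127705600 16777216 281475010265088 33554432) = true := by
  decide +kernel

open Tr in
theorem c258 : chk T0 gs0 (s0 (s3 (s2 (s0 l (s1 l l)) (s0 l (s1 l l))) (s0 (s2 (s1 l l) (s1 l l)) (s2 (s1 l l) (s3 l (d 5))))) (s3 (s0 (s2 (s1 l l) (s1 l l)) (s2 (s3 l (s2 l (d 5))) (s3 l (d 5)))) (s0 (s2 (s3 l (d 5)) (d 5)) (d 5))))
    (Bx.mk 281475060596736 16777216 281474892824576 16777216 281475161260032 16777216 281475010265088 33554432) = true := by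
  decide +kernel

open Tr in
theorem c259 : chk T0 gs0 (s1 (s2 (s3 (s0 (s1 (s0 (s2 (s3 l l) l) (s2 (s3 l l) (s3 l (d 5)))) (s2 (s3 (s0 l l) (s0 l l)) (s0 (s3 l l) (s3 l (d 5))))) (s1 (s2 (s3 (s0 l (s0 l (d 4))) (d 5)) (d 5)) (d 4))) (s0 (s2 (s0 (s3 l (d 5)) (d 5)) (d 5)) (d 5))) (s3 (s0 (s2 (s3 (s0 l (d 5)) (d 5)) (d 5)) (d 5)) (d 5))) (s0 (s1 (s0 (s1 (s0 (s1 (s0 (s1 (s0 (s1 (s2 (s3 l (s2 l (d 5))) (s3 l (d 5))) (d 4)) (d 4)) (d 4)) (d 4)) (d 4)) (d 4)) (d 4)) (d 4)) (d 4)) (d 4)))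
    (Bx.mk 281475094151168 16777216 281474876047360 33554432 281475144482816 33554432 281475010265088 33554432) = true := by
  decide +kernel

open Tr in
theorem c260 : chk T0 gs0 (s2 (s3 (s0 (s2 (s3 (s1 l l) (s1 l l)) (s0 (s1 l l) (s3 l (d 5)))) (s0 (s2 (s3 l (d 5)) (d 5)) (d 5))) (s0 (s0 (s2 (s1 l l) (s3 l (d 5))) (d 5)) (d 5))) (s0 (s3 (s0 (s2 (s1 l l) (s3 l (d 5))) (d 5)) (d 5)) (d 5)))
    (Bx.mk 281475060596736 16777216 281474859270144 16777216 281475144482816 33554432 281475077373952 33554432) = true := by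
  decide +kernel

open Tr in
theorem c261 : chk T0 gs0 (s2 (s3 (s0 (s0 (s2 (s1 l l) (s1 l l)) (s2 (s3 l l) (s3 l (d 5)))) (s0 (s2 (s3 (s2 l (d 5)) (d 5)) (d 5)) (d 5))) (s0 (s0 (s2 (s3 l l) (s3 l (d 5))) (d 5)) (d 5))) (s0 (s3 (s0 (s2 (s1 l l) (s3 l (d 5))) (d 5)) (d 5)) (d 5)))
    (Bx.mk 281475060596736 16777216 281474892824576 16777216 281475144482816 33554432 281475077373952 33554432) = true := by
  decide +kernel

open Tr in
theorem c262 : chk T0 gs0 (d 5)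
    (Bx.mk 281475094151168 16777216 281474876047360 33554432 281475144482816 33554432 281475077373952 33554432) = true := by
  decide +kernel

open Tr in
theorem c263 : chk T0 gs0 (s3 (s0 (s1 (s2 (s3 (s0 (s0 (s2 l l) (s2 l l)) (s0 (s2 (s3 l (d 5)) (d 5)) (d 5))) (s0 (s0 (s2 l l) (d 5)) (d 5))) (s0 (s0 (s3 (s2 l l) (d 5)) (d 5)) (d 5))) (s2 (s3 (s0 (s0 (s2 l l) (s2 (s1 l l) (s3 l (d 5)))) (s0 (s2 (s3 l (d 5)) (d 5)) (d 5))) (s0 (s0 (s2 (s1 l l) (s3 l (d 5))) (d 5)) (d 5))) (s0 (s0 (s3 (s2 l l) (d 5)) (d 5)) (d 5)))) (d 5)) (s0 (s2 (s0 (d 5) (d 5)) (d 3)) (d 5)))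
    (Bx.mk 281475077373952 33554432 281474876047360 33554432 281475211591680 33554432 281475043819520 67108864) = true := by
  decide +kernel

open Tr in
theorem c264 : chk T0 gs0 (s0 (s3 (s2 (s0 (s1 l l) (s1 l l)) (s0 (s1 l l) (s1 l l))) (s0 (s2 (s1 l l) (s1 l l)) (s2 (s3 l l) (s3 l (s1 l l))))) (s0 (s1 (s0 (s1 (s3 l (s2 l l)) (d 4)) (d 4)) (d 4)) (d 4)))
    (Bx.mk 281475060596736 16777216 281474926379008 16777216 281475127705600 16777216 281475010265088 33554432) = true := by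
  decide +kernel

open Tr in
theorem c265 : chk T0 gs0 (s3 (s0 (s0 (s2 (s1 l l) (s1 l l)) (s2 (s1 l l) (s1 l l))) (s0 (s1 (s0 (s1 l (d 4)) (d 4)) (d 4)) (d 4))) (s0 (s0 (s2 (s1 l l) (s1 l l)) (s2 (s3 l (s2 l (d 5))) (s3 l (d 5)))) (s0 (s2 (s3 (s1 l (d 4)) (d 5)) (d 5)) (d 4))))
    (Bx.mk 281475060596736 16777216 281474926379008 16777216 281475161260032 16777216 281475010265088 33554432) = true := by
  decide +kernel

open Tr in
theorem c266 : chk T0 gs0 (s0 (s0 (s2 (s3 (s2 (s1 l l) (s1 l l)) (s2 (s1 l l) (s1 l (s1 l (d 4))))) (s3 (s2 (s1 l l) (s1 l l)) (s2 (s3 l (s1 l l)) (s3 l (s1 l l))))) (d 4)) (d 4))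
    (Bx.mk 281475060596736 16777216 281474959933440 16777216 281475144482816 33554432 281475010265088 33554432) = true := by
  decide +kernel

open Tr in
theorem c267 : chk T0 gs0 (s2 (s3 (s0 (s0 (s2 (s3 l l) (s3 l (s1 l l))) (s2 (s3 (s1 l l) (s2 l (d 5))) (s3 (s2 l (d 5)) (d 5)))) (s0 (s2 (s3 (s1 l (d 4)) (d 5)) (d 5)) (d 4))) (s0 (s0 (s2 (s3 (s1 l l) (s2 l (d 5))) (s3 (s2 l (d 5)) (d 5))) (d 5)) (d 5))) (s0 (s0 (s3 (s2 (s3 l (s2 l (d 5))) (s3 l (d 5))) (d 5)) (d 5)) (d 5)))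
    (Bx.mk 281475060596736 16777216 281474926379008 16777216 281475144482816 33554432 281475077373952 33554432) = true := by
  decide +kernel

open Tr in
theorem c268 : chk T0 gs0 (s0 (s0 (s2 (s3 (s2 (s3 (s1 l l) (s1 l l)) (s3 (s1 l l) (s1 l l))) (s2 (s3 (s1 l l) (s0 (s2 l (d 5)) (d 5))) (s3 (s0 (s2 l (d 5)) (d 5)) (d 5)))) (s3 (s2 (s3 (s1 l l) (s0 l (d 5))) (s3 (s0 l (d 5)) (d 5))) (d 5))) (d 4)) (d 4))
    (Bx.mk 281475060596736 16777216 281474959933440 16777216 281475144482816 33554432 281475077373952 33554432) = true := by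
  decide +kernel

open Tr in
theorem c269 : chk T0 gs0 (s3 (s1 (s2 (s3 (s0 (s0 (s2 (s1 l l) (s1 l l)) (s2 (s1 l l) (s3 l (d 5)))) (s1 (s0 (s2 (s3 l (d 5)) (d 5)) (d 4)) (d 4))) (s0 (s0 (s2 (s1 l l) (s3 l (d 5))) (d 5)) (d 5))) (s0 (s0 (s3 (s2 (s1 l l) (s3 l (d 5))) (d 5)) (d 5)) (d 5))) (s0 (s0 (s2 (s3 (s2 (s1 l l) (s1 l l)) (s2 (s3 (s1 l l) (s2 l (d 5))) (s3 (s2 l (d 5)) (d 5)))) (s3 (s2 (s1 l (s1 l (d 4))) (s3 l (d 5))) (d 5))) (d 4)) (d 4))) (s2 (s0 (d 5) (d 5)) (d 3)))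
    (Bx.mk 281475060596736 16777216 281474943156224 33554432 281475211591680 33554432 281475043819520 67108864) = true := by
  decide +kernel

open Tr in
theorem c270 : chk T0 gs0 (d 4)
    (Bx.mk 281475094151168 16777216 281474943156224 33554432 281475178037248 67108864 281475043819520 67108864) = true := by
  decide +kernel

open Tr in
theorem c271 : chk T1 gs1 (s3 (d 1) (s1 (s0 (s1 (s2 (s3 (d 1) l) (s3 l l)) (s3 (s2 (d 1) l) (s2 l l))) (s1 (s2 (s3 (d 1) l) (s3 l l)) (s2 (s3 (d 1) l) (s3 l l)))) (s0 (s3 (s2 (d 1) (s2 (d 1) l)) (s2 (s1 l l) (s1 l l))) (s2 (s3 (d 1) l) (s3 (s2 (d 1) l) (s1 l l))))))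
    (Bx.mk 281474993487872 16777216 281475043819520 67108864 281475010265088 33554432 281474909601792 67108864) = true := by
  decide +kernel

end D2

end Vale.Agent.Lib.P154
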