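import Vale.Agent.Lib.P154.Prog2

/-! Generated certificates. -/

namespace Vale.Agent.Lib.P154

namespace D2

open Tr in
theorem c288 : chk T1 gs1 (s1 (s2 (s3 (s1 l l) (s3 (s2 (d 0) l) (d 0))) (s3 (s1 l (s1 l l)) (s1 (s1 l l) (s2 l l)))) (s2 (s3 (s1 l l) (s3 (s1 l l) (d 0))) (s3 (s0 l (s1 l l)) (s0 (s1 l l) (s1 l l)))))
    (Bx.mk 281475006070784 4194304 281475077373952 33554432 281475094151168 16777216 281475094151168 16777216) = true := by
  decide +kernel

open Tr in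
theorem c289 : chk T1 gs1 (s3 (s2 (s3 (d 1) (s1 (s1 l l) l)) (s1 (s0 l (s3 l l)) (s3 (s2 (d 1) l) l))) (s2 (s1 (s0 l (s3 l l)) (s3 l (s1 l l))) (s0 (s1 l l) (s1 (s3 l l) (s3 l l)))))
    (Bx.mk 281474985099264 8388608 281475010265088 33554432 281475144482816 33554432 281474909601792 67108864) = true := by
  decide +kernel

open Tr in
theorem c290 : chk T1 gs1 (s3 (s2 (s3 (d 1) (s1 l l)) (s0 (s1 l l) (s1 l l))) (s2 (s3 (s1 l l) (s1 l l)) (s0 (s1 l l) (s1 (s3 l l) (s3 l l)))))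
    (Bx.mk 281474985099264 8388608 281475077373952 33554432 281475144482816 33554432 281474909601792 67108864) = true := by
  decide +kernel

open Tr in
theorem c291 : chk T1 gs1 (s3 (s0 (s2 (s1 l l) (s1 l l)) (s2 (s1 l l) (s1 l l))) (s0 (s2 (s1 l l) (s1 l l)) (s2 (s1 (s3 l l) (s3 l l)) (s1 (s3 l l) (s3 l l)))))
    (Bx.mk 281474985099264 8388608 281475010265088 33554432 281475211591680 33554432 281474909601792 67108864) = true := by
  decide +kernel

open Tr in
theorem c292 : chk T1 gs1 (s3 (s2 (s0 (s1 l l) (s1 l l)) (s0 (s1 l l) (s1 l l))) (s2 (s0 (s1 l l) (s1 (s3 l l) (s3 l l))) (s0 (s1 l l) (s1 (s3 l l) (s3 l l)))))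
    (Bx.mk 281474985099264 8388608 281475077373952 33554432 281475211591680 33554432 281474909601792 67108864) = true := by
  decide +kernel

open Tr in
theorem c293 : chk T1 gs1 (s2 (s3 (d 1) (s1 (s1 l l) (s1 l l))) (s1 (s0 (s3 l l) (s3 l l)) (s0 (s3 l l) (s3 l l))))
    (Bx.mk 281475001876480 8388608 281475010265088 33554432 281475144482816 33554432 281474876047360 33554432) = true := by
  decide +kernel

open Tr in
theorem c294 : chk T1 gs1 (s2 (s1 (s0 (s3 l l) (s3 l l)) (s3 (s1 l l) (s0 l (s1 l l)))) (s1 (s0 (s3 l l) (s3 l (s1 l l))) (s3 (s0 l l) (s0 l (s1 l l)))))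
    (Bx.mk 281475001876480 8388608 281475010265088 33554432 281475144482816 33554432 281474943156224 33554432) = true := by
  decide +kernel

open Tr in
theorem c295 : chk T1 gs1 (s3 (s2 (s3 (d 1) (s1 (s1 l l) (s1 l l))) (s1 (s3 (s2 (d 1) l) (s1 l l)) (s3 (s2 (d 1) l) (s1 l l)))) (s2 (s3 (s1 (s1 l l) (s1 l l)) (s1 (s0 l (s1 l l)) (s0 l l))) (s1 (s3 (s0 l l) (s0 l (s1 l l))) (s3 (s2 l l) (s0 l (s1 l l))))))
    (Bx.mk 281475001876480 8388608 281475077373952 33554432 281475144482816 33554432 281474909601792 67108864) = true := by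
  decide +kernel

open Tr in
theorem c296 : chk T1 gs1 (s2 (s1 (s0 (s3 l l) (s3 l l)) (s0 (s3 l l) (s3 l l))) (s1 (s0 (s3 l l) (s3 l l)) (s0 (s3 l l) (s3 l l))))
    (Bx.mk 281475001876480 8388608 281475010265088 33554432 281475211591680 33554432 281474876047360 33554432) = true := by
  decide +kernel

open Tr in
theorem c297 : chk T1 gs1 (s2 (s1 (s0 (s3 l l) (s3 l (s1 l l))) (s0 (s3 l l) (s3 (s1 l l) (s1 l l)))) (s0 (s1 (s3 l l) (s3 l l)) (s1 (s3 (s1 l l) (s1 l l)) (s3 (s1 l l) (s1 l l)))))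
    (Bx.mk 281475001876480 8388608 281475010265088 33554432 281475211591680 33554432 281474943156224 33554432) = true := by
  decide +kernel

open Tr in
theorem c298 : chk T1 gs1 (s2 (s1 (s0 (s3 l l) (s3 l l)) (s3 (s1 l l) (s1 l l))) (s1 (s0 (s3 l l) (s3 l l)) (s0 (s3 l l) (s3 l l))))
    (Bx.mk 281475001876480 8388608 281475077373952 33554432 281475211591680 33554432 281474876047360 33554432) = true := by
  decide +kernel

open Tr in
theorem c299 : chk T1 gs1 (s2 (s1 (s3 (s0 l (s1 l l)) (s0 (s1 l l) (s1 l l))) (s3 (s0 l (s1 l l)) (s0 (s1 l l) (s1 l l)))) (s0 (s1 (s3 l (s1 l l)) (s3 l (s1 l l))) (s1 (s3 (s1 l l) (s2 l l)) (s3 (s1 l l) (s2 l l)))))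
    (Bx.mk 281475001876480 8388608 281475077373952 33554432 281475211591680 33554432 281474943156224 33554432) = true := by
  decide +kernel

open Tr in
theorem c300 : chk T1 gs1 (s2 (s0 (s3 (s1 l l) (s1 l l)) (s1 (s3 l l) (s3 l (s1 l l)))) (s0 (s3 (s1 l l) (s1 l l)) (s1 (s3 l l) (s3 l (s1 l l)))))
    (Bx.mk 281474985099264 8388608 281475010265088 33554432 281475144482816 33554432 281475010265088 33554432) = true := by
  decide +kernel

open Tr in
theorem c301 : chk T1 gs1 (s2 (s0 (s3 (s1 l l) (s1 l l)) (s3 (s1 l l) (s1 (s1 l l) (s1 l l)))) (s0 (s3 (s1 l l) (s1 l l)) (s3 (s1 l l) (s1 (s1 l l) (s1 l l)))))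
    (Bx.mk 281474985099264 8388608 281475077373952 33554432 281475144482816 33554432 281475010265088 33554432) = true := by
  decide +kernel

open Tr in
theorem c302 : chk T1 gs1 (s0 (s2 (s3 (s1 l l) (s1 l l)) (s3 (s1 l l) (s1 l l))) (s2 (s3 (s1 (s1 l l) (s2 l l)) (s1 (s1 l l) (s0 l (s1 l l)))) (s3 (s1 (s1 l l) (s2 l l)) (s2 (s3 (s1 l l) (d 3)) (d 3)))))
    (Bx.mk 281474985099264 8388608 281475010265088 33554432 281475144482816 33554432 281475077373952 33554432) = true := by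
  decide +kernel

open Tr in
theorem c303 : chk T1 gs1 (s0 (s2 (s3 (s1 l l) (s1 l l)) (s3 (s1 l l) (s2 l (d 3)))) (s2 (s3 (s1 (s2 l l) (s2 l l)) (s1 (s0 l (s1 l l)) (s0 l (s1 l l)))) (s3 (s1 (s2 l l) (s0 l (s1 l l))) (s2 (s3 (s1 l l) (d 3)) (d 3)))))
    (Bx.mk 281474985099264 8388608 281475077373952 33554432 281475144482816 33554432 281475077373952 33554432) = true := by
  decide +kernel

end D2

end Vale.Agent.Lib.P154
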