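import Vale.Agent.Lib.P154.Prog2

/-! Generated certificates. -/

namespace Vale.Agent.Lib.P154

namespace D2

open Tr in
theorem c32 : chk T0 gs0 (s2 (d 1) (s3 (d 1) (s2 (d 1) (s1 (s3 (d 1) (s2 (d 1) (s0 l (s3 (d 1) l)))) (s3 (d 1) (s2 (d 1) (s0 l (s3 (d 1) l))))))))
    (Bx.mk 281475060596736 16777216 281474876047360 33554432 281475027042304 16777216 281474926379008 16777216) = true := by
  decide +kernel

open Tr in
theorem c33 : chk T0 gs0 (s3 (s1 (s2 (s3 (d 1) (s0 l l)) (s0 l l)) (s2 (s0 l l) (s0 l l))) (s1 (s2 (s0 (s1 l l) (s1 l l)) (s0 l l)) (s2 (s0 l (s1 l l)) (s0 l l))))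
    (Bx.mk 281475052208128 8388608 281474859270144 16777216 281475018653696 8388608 281474959933440 16777216) = true := by
  decide +kernel

open Tr in
theorem c34 : chk T0 gs0 (s3 (s1 (s2 (s3 (d 1) (s0 l l)) (s0 l l)) (s2 (s3 (d 1) l) (s0 l l))) (s1 (s2 (s0 (s1 l l) l) (s0 l l)) (s2 (s0 l l) (s0 l l))))
    (Bx.mk 281475068985344 8388608 281474859270144 16777216 281475018653696 8388608 281474959933440 16777216) = true := by
  decide +kernel

open Tr in
theorem c35 : chk T0 gs0 (s0 (s3 (s1 (s2 (s0 l l) l) (s2 (s0 l l) l)) (s1 (s2 (s0 l l) l) (s2 (s0 l l) l))) (s3 (s1 (s2 (s0 l l) (s0 l l)) (s2 (s0 l l) (s0 l l))) (s1 (s2 (s0 l l) (s0 l l)) (s2 (s0 l l) (s0 l l)))))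
    (Bx.mk 281475060596736 16777216 281474859270144 16777216 281475035430912 8388608 281474959933440 16777216) = true := by
  decide +kernel

open Tr in
theorem c36 : chk T0 gs0 (s2 (s3 (s1 (s2 (s3 (d 1) l) (s0 l l)) (s0 l l)) (s1 (s2 (s0 l l) (s0 l l)) (s0 l l))) (s3 (s1 (s0 l l) (s0 l l)) (s1 (s0 l l) (s0 l l))))
    (Bx.mk 281475052208128 8388608 281474892824576 16777216 281475027042304 16777216 281474959933440 16777216) = true := by
  decide +kernel

open Tr in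
theorem c37 : chk T0 gs0 (s2 (s3 (s1 (s2 (s3 (d 1) l) (s0 l l)) (s0 l l)) (s1 (s2 (s0 l l) (s0 l l)) (s0 l l))) (s3 (s1 (s0 l (s1 l l)) (s0 l l)) (s1 (s2 (s0 l l) l) (s0 l l))))
    (Bx.mk 281475068985344 8388608 281474892824576 16777216 281475027042304 16777216 281474959933440 16777216) = true := by
  decide +kernel

open Tr in
theorem c38 : chk T0 gs0 (s2 (d 1) (s2 (d 1) (s3 (d 1) (s2 (d 1) (s3 (d 1) (s2 (d 1) (s0 l l)))))))
    (Bx.mk 281475094151168 16777216 281474859270144 16777216 281475010265088 33554432 281474926379008 16777216) = true := by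
  decide +kernel

open Tr in
theorem c39 : chk T0 gs0 (s2 (s3 (d 1) (s0 (s1 (s2 (s3 (d 1) l) (s3 l l)) (s2 (s3 (d 1) l) (s0 l l))) (s1 (s2 (s3 (d 1) l) (s0 l l)) (d 4)))) (s3 (s2 (d 1) (s3 (d 1) (s2 (d 1) (s3 (d 1) (s2 (d 1) (s0 l l)))))) (s0 (s1 (s2 (s3 l l) (s0 l l)) (s2 (s0 l l) (s0 l l))) (s1 (s2 (s0 l l) (s0 l l)) (d 4)))))
    (Bx.mk 281475094151168 16777216 281474859270144 16777216 281474993487872 16777216 281474959933440 16777216) = true := by
  decide +kernel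

open Tr in
theorem c40 : chk T0 gs0 (s3 (s0 (s1 (s2 (s3 (d 1) l) (s0 l l)) (s2 (s3 (d 1) l) (s0 l l))) (s1 (s2 (s3 (d 1) l) (s0 l l)) (d 4))) (s0 (s1 (s2 (s0 l l) (s0 l l)) (s2 (s0 l l) (s0 l l))) (s1 (s2 (s0 l l) (s0 l l)) (d 4))))
    (Bx.mk 281475094151168 16777216 281474859270144 16777216 281475018653696 8388608 281474959933440 16777216) = true := by
  decide +kernel

open Tr in
theorem c41 : chk T0 gs0 (s3 (s0 (s1 (s2 (s0 l l) (s0 l l)) (s2 (s0 l l) (s0 l l))) (s1 (s2 (s0 l l) (s0 l l)) (d 4))) (s0 (s1 (s2 (s0 l l) (s0 l l)) (s2 (s0 l l) (s0 l l))) (s1 (s2 (s0 l l) (s0 l l)) (d 4))))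
    (Bx.mk 281475094151168 16777216 281474859270144 16777216 281475035430912 8388608 281474959933440 16777216) = true := by
  decide +kernel

open Tr in
theorem c42 : chk T0 gs0 (s0 (s2 (s3 (d 1) (s0 (s1 (s0 (s1 (s0 (s1 (s0 (s1 (s1 (s2 (s3 (d 1) l) (s3 l l)) (d 4)) (d 4)) (d 4)) (d 4)) (d 4)) (d 4)) (d 4)) (d 4)) (d 4))) (s3 (s2 (d 1) (s3 (d 1) (s1 (s2 (d 1) l) (d 4)))) (s0 (s1 (s0 (s1 (s0 (s1 (s0 (s2 (s3 l l) l) (d 4)) (d 4)) (d 4)) (d 4)) (d 4)) (d 4)) (d 4)))) (d 4))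
    (Bx.mk 281475094151168 16777216 281474892824576 16777216 281475010265088 33554432 281474943156224 33554432) = true := by
  decide +kernel

open Tr in
theorem c43 : chk T0 gs0 (s2 (d 1) (s3 (d 1) (s2 (d 1) (s3 (d 1) (s2 (d 1) (s3 (d 1) (s0 (s2 (d 1) (s3 (d 1) (s0 l (s1 l l)))) (s1 (s0 l l) (s0 l (d 4))))))))))
    (Bx.mk 281475077373952 33554432 281474876047360 33554432 281475077373952 33554432 281474876047360 33554432) = true := by
  decide +kernel

open Tr in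
theorem c44 : chk T0 gs0 (s1 (s2 (s3 (d 1) (s1 (s0 l l) (s0 l l))) (s3 (s2 (d 1) l) (s1 l (s0 l l)))) (s2 (s3 (d 1) (s1 (s0 l l) (s0 l l))) (s1 (s3 l l) (s3 l l))))
    (Bx.mk 281475052208128 8388608 281474876047360 33554432 281475060596736 16777216 281474926379008 16777216) = true := by
  decide +kernel

open Tr in
theorem c45 : chk T0 gs0 (s1 (s2 (s3 (s1 (s0 l l) (s0 l l)) (s1 (s0 l l) (s0 l l))) (s3 (s2 (s1 l l) l) (s1 l (s0 l l)))) (s2 (s3 (s1 (s0 l l) (s0 l l)) (s1 (s0 l l) (s0 l l))) (s3 (s1 l l) (s1 l l))))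
    (Bx.mk 281475052208128 8388608 281474876047360 33554432 281475060596736 16777216 281474959933440 16777216) = true := by
  decide +kernel

open Tr in
theorem c46 : chk T0 gs0 (s1 (s2 (s3 (s1 l l) (s1 l l)) (s3 l (s1 l l))) (s2 (s1 (s3 l l) (s3 l l)) (s1 (s3 l l) (s3 l l))))
    (Bx.mk 281475052208128 8388608 281474876047360 33554432 281475094151168 16777216 281474926379008 16777216) = true := by
  decide +kernel

open Tr in
theorem c47 : chk T0 gs0 (s1 (s2 (s3 (s1 l l) (s1 l l)) (s3 (s1 l l) (s1 l l))) (s2 (s3 (s1 l l) (s1 l l)) (s3 (s1 l l) (s1 l l))))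
    (Bx.mk 281475052208128 8388608 281474876047360 33554432 281475094151168 16777216 281474959933440 16777216) = true := by
  decide +kernel

end D2

end Vale.Agent.Lib.P154
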