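import Vale.Agent.Lib.P154.Prog2

/-! Generated certificates. -/

namespace Vale.Agent.Lib.P154

namespace D2

open Tr in
theorem c336 : chk T1 gs1 (s0 (s1 (s2 l (s3 l l)) (s2 (s3 l l) (s3 l l))) (s1 (s2 (s3 l l) (s3 l l)) (s2 (s3 l l) (s3 l l))))
    (Bx.mk 281475018653696 8388608 281474993487872 16777216 281475094151168 16777216 281475094151168 16777216) = true := by
  decide +kernel

open Tr in
theorem c337 : chk T1 gs1 (s0 (s2 (s1 (s3 l l) (s3 l l)) (s1 (s3 l l) (s3 l (s1 l l)))) (s1 (s2 (s3 l l) (s3 l (s1 l l))) (s2 (s3 l (s2 (d 0) l)) (s3 (s1 l l) (s0 l l)))))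
    (Bx.mk 281475018653696 8388608 281475027042304 16777216 281475094151168 16777216 281475094151168 16777216) = true := by
  decide +kernel

open Tr in
theorem c338 : chk T1 gs1 (s3 (s2 (s3 (s1 l l) (s1 l l)) (s3 (s1 l l) (s1 (s0 l l) (s0 l l)))) (s3 (s3 (s2 (d 0) (s3 (s2 (d 0) (s1 l l)) (d 0))) (d 0)) (d 0)))
    (Bx.mk 281475018653696 8388608 281475077373952 33554432 281475010265088 33554432 281475043819520 67108864) = true := by
  decide +kernel

open Tr in
theorem c339 : chk T1 gs1 (s3 (s1 (s0 l l) (s2 l l)) (s1 (s0 (s1 l l) (s1 l (s2 l l))) (s0 (s1 l l) (s2 l (s1 l l)))))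
    (Bx.mk 281475018653696 8388608 281475077373952 33554432 281475060596736 16777216 281475010265088 33554432) = true := by
  decide +kernel

open Tr in
theorem c340 : chk T1 gs1 (s3 (s1 (s0 (s1 l l) (s1 l l)) (s0 (s1 l l) (s1 l l))) (s1 (s0 (s3 (s1 l l) (s1 l l)) (s2 (s1 l l) (s3 l (s1 l l)))) (s0 (s3 (s1 l l) (s2 l (s1 l l))) (s2 (s1 l l) (s3 l (s1 l l))))))
    (Bx.mk 281475018653696 8388608 281475077373952 33554432 281475094151168 16777216 281475010265088 33554432) = true := by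
  decide +kernel

open Tr in
theorem c341 : chk T1 gs1 (s3 (s1 (s0 (s2 (s1 l l) (s3 l (s1 l l))) (s2 (s1 l l) (s3 l (s1 l l)))) (s0 (s2 (s1 l l) (s3 l (s1 l l))) (s2 (s3 l l) (s3 l (s1 l l))))) (s3 (s3 (s2 (d 0) (s1 (s2 (d 0) (s0 l l)) (s2 (d 0) (s3 (s1 l l) (d 0))))) (d 0)) (d 0)))
    (Bx.mk 281475018653696 8388608 281475077373952 33554432 281475060596736 16777216 281475077373952 33554432) = true := by
  decide +kernel

open Tr in
theorem c342 : chk T1 gs1 (s0 (s3 (s2 (s1 l l) (s1 l l)) (s2 (s1 l l) (s1 l (s1 l l)))) (s2 (s3 (s1 l l) (s1 l (s1 l l))) (s3 (s1 l l) (s1 (s1 l l) (s0 l l)))))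
    (Bx.mk 281475018653696 8388608 281475060596736 16777216 281475094151168 16777216 281475060596736 16777216) = true := by
  decide +kernel

open Tr in
theorem c343 : chk T1 gs1 (s0 (s2 (s3 (s1 l l) (s1 l l)) (s3 (s1 l l) (s1 (s1 l l) (s2 l l)))) (s2 (s3 (s1 l l) (s1 (s1 l l) (s1 l l))) (s3 (s1 (s1 l l) (s1 l l)) (s1 (s0 l (s1 l l)) (s0 l (s1 l l))))))
    (Bx.mk 281475018653696 8388608 281475094151168 16777216 281475094151168 16777216 281475060596736 16777216) = true := by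
  decide +kernel

open Tr in
theorem c344 : chk T1 gs1 (s2 (s3 (s1 l (s1 l l)) (s3 (s1 l l) (d 0))) (s3 (s1 (s1 l l) (s0 l l)) (s1 (s0 l l) (s0 l (s1 l l)))))
    (Bx.mk 281475014459392 4194304 281475060596736 16777216 281475094151168 16777216 281475094151168 16777216) = true := by
  decide +kernel

open Tr in
theorem c345 : chk T1 gs1 (s2 (s3 (s1 (s1 l l) (s0 l l)) (s3 (s2 (d 0) (s1 l l)) (d 0))) (s3 (s1 (s0 l l) (s0 (s1 l l) (s1 l l))) (s1 (s0 l (s1 l l)) (s0 (s1 l l) (s1 l l)))))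
    (Bx.mk 281475022848000 4194304 281475060596736 16777216 281475094151168 16777216 281475094151168 16777216) = true := by
  decide +kernel

open Tr in
theorem c346 : chk T1 gs1 (s2 (s3 (s1 (s2 l l) (s0 l l)) (s3 (s2 (d 0) (s1 l l)) (d 0))) (s3 (s1 (s0 l (s1 l l)) (s0 l (s1 l l))) (s1 (s0 (s1 l l) (s1 l l)) (s0 (s1 l l) (s1 l l)))))
    (Bx.mk 281475014459392 4194304 281475094151168 16777216 281475094151168 16777216 281475094151168 16777216) = true := by
  decide +kernel

open Tr in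
theorem c347 : chk T1 gs1 (s3 (s1 (s0 l (s1 l l)) (s0 (s1 l l) (s1 l l))) (s3 (s2 (d 0) (s3 (s1 l l) (d 0))) (d 0)))
    (Bx.mk 281475022848000 4194304 281475094151168 16777216 281475085762560 8388608 281475094151168 16777216) = true := by
  decide +kernel

open Tr in
theorem c348 : chk T1 gs1 (s3 (s1 (s0 (s1 l l) (s2 l l)) (s0 (s1 l l) (s2 l l))) (s1 (s0 (s2 l (s1 l l)) (s2 (s1 l l) (s1 l l))) (s0 (s2 l (s1 l l)) (s2 (s1 l l) (s1 l l)))))
    (Bx.mk 281475022848000 4194304 281475094151168 16777216 281475102539776 8388608 281475094151168 16777216) = true := by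
  decide +kernel

open Tr in
theorem c349 : chk T1 gs1 (s2 (s3 (d 1) (s1 (s0 l (s1 l l)) (s2 l l))) (s1 (s0 (s3 (s2 (d 1) l) l) (s3 (s2 (d 1) l) (s1 l l))) (s0 (s3 (s2 (d 1) l) l) (s3 (s2 (d 1) l) (s1 l l)))))
    (Bx.mk 281475018653696 8388608 281475010265088 33554432 281475144482816 33554432 281474876047360 33554432) = true := by
  decide +kernel

open Tr in
theorem c350 : chk T1 gs1 (s1 (s3 (s0 l (s1 l l)) (s0 (s1 l l) (s1 l l))) (s3 (s0 l (s1 l l)) (s0 (s1 l l) (s1 l l))))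
    (Bx.mk 281475018653696 8388608 281475010265088 33554432 281475127705600 16777216 281474943156224 33554432) = true := by
  decide +kernel

open Tr in
theorem c351 : chk T1 gs1 (s1 (s0 (s3 (s1 l l) (s1 l l)) (s3 (s1 l l) (s1 l l))) (s3 (s0 (s1 l l) (s1 l l)) (s0 (s1 l l) (s1 l (s2 l l)))))
    (Bx.mk 281475018653696 8388608 281475010265088 33554432 281475161260032 16777216 281474943156224 33554432) = true := by
  decide +kernel

end D2

end Vale.Agent.Lib.P154
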