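import Vale.Agent.Lib.P154.Prog2

/-! Generated certificates. -/

namespace Vale.Agent.Lib.P154

namespace D2

open Tr in
theorem c352 : chk T1 gs1 (s2 (s1 (s0 (s3 l l) (s3 (s1 l l) (s1 l l))) (s0 (s3 l (s1 l l)) (s3 (s1 l l) (s1 l l)))) (s1 (s0 (s3 l (s1 l l)) (s3 (s1 l l) (s1 l l))) (s0 (s3 l (s1 l l)) (s3 (s1 l l) (s1 l l)))))
    (Bx.mk 281475018653696 8388608 281475010265088 33554432 281475211591680 33554432 281474876047360 33554432) = true := by
  decide +kernel

open Tr in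
theorem c353 : chk T1 gs1 (s1 (s0 (s3 (s1 l l) (s1 l l)) (s3 (s1 l l) (s2 l l))) (s0 (s3 (s1 l l) (s2 l l)) (s3 (s1 l l) (s2 (s1 l l) (s1 l l)))))
    (Bx.mk 281475018653696 8388608 281475010265088 33554432 281475194814464 16777216 281474943156224 33554432) = true := by
  decide +kernel

open Tr in
theorem c354 : chk T1 gs1 (s1 (s0 (s3 (s1 l l) (s1 l l)) (s3 (s1 l l) (s2 l l))) (s0 (s3 (s1 l l) (s2 l l)) (s3 (s1 l l) (s2 (s1 l l) (s1 l l)))))
    (Bx.mk 281475018653696 8388608 281475010265088 33554432 281475228368896 16777216 281474943156224 33554432) = true := by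
  decide +kernel

open Tr in
theorem c355 : chk T1 gs1 (s2 (s3 (d 1) (s1 (s1 l l) (s1 l l))) (s1 (s3 (s2 (d 1) (s3 (d 1) l)) (s0 l (s1 l l))) (s3 (s2 (d 1) (s3 (d 1) l)) (s2 l l))))
    (Bx.mk 281475018653696 8388608 281475077373952 33554432 281475144482816 33554432 281474876047360 33554432) = true := by
  decide +kernel

open Tr in
theorem c356 : chk T1 gs1 (s2 (s1 (s3 (s0 l l) (s0 (s1 l l) (s1 l l))) (s3 (s2 l l) (s0 (s1 l l) (s1 l l)))) (s1 (s3 (s0 (s1 l l) (s1 l l)) (s0 (s1 l l) (s2 l (s1 l l)))) (s3 (s0 (s1 l l) (s1 l l)) (s0 (s2 l l) (s2 l (s1 l l))))))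
    (Bx.mk 281475018653696 8388608 281475077373952 33554432 281475144482816 33554432 281474943156224 33554432) = true := by
  decide +kernel

open Tr in
theorem c357 : chk T1 gs1 (s2 (s1 (s0 (s3 l (s1 l l)) (s3 (s1 l l) (s1 l l))) (s3 (s0 l (s1 l l)) (s0 l (s1 l l)))) (s1 (s0 (s3 (s1 l l) (s1 l l)) (s3 (s1 l l) (s1 l l))) (s0 (s3 l (s1 l l)) (s3 (s1 l l) (s1 l l)))))
    (Bx.mk 281475018653696 8388608 281475077373952 33554432 281475211591680 33554432 281474876047360 33554432) = true := by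
  decide +kernel

open Tr in
theorem c358 : chk T1 gs1 (s1 (s3 (s0 (s1 l l) (s1 l l)) (s0 (s2 (s1 l l) (s1 l l)) (s2 (s1 l l) (s1 l l)))) (s3 (s0 (s1 l l) (s1 l l)) (s0 (s2 (s1 l l) (s1 l l)) (s2 (s1 l l) (s1 l l)))))
    (Bx.mk 281475018653696 8388608 281475077373952 33554432 281475194814464 16777216 281474943156224 33554432) = true := by
  decide +kernel

open Tr in
theorem c359 : chk T1 gs1 (s1 (s0 (s3 (s1 l l) (s2 (s1 l l) (s1 l l))) (s3 (s2 l (s1 l l)) (s2 (s1 l l) (s1 l l)))) (s3 (s0 (s1 l l) (s2 l l)) (s0 (s2 (s1 l l) (s1 l l)) (s2 (s1 l l) (s1 l l)))))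
    (Bx.mk 281475018653696 8388608 281475077373952 33554432 281475228368896 16777216 281474943156224 33554432) = true := by
  decide +kernel

open Tr in
theorem c360 : chk T1 gs1 (s3 (s0 (s1 l l) (s1 l (s2 l l))) (s0 (s1 (s2 l l) (s2 l l)) (s1 (s2 l l) (s2 l l))))
    (Bx.mk 281475018653696 8388608 281474993487872 16777216 281475127705600 16777216 281475010265088 33554432) = true := by
  decide +kernel

open Tr in
theorem c361 : chk T1 gs1 (s3 (s0 (s1 l (s2 l l)) (s1 (s2 l l) (s2 l l))) (s0 (s2 (s1 l l) (s1 l (s3 l l))) (s2 (s1 l (s3 l l)) (s1 (s3 l l) (s3 l l)))))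
    (Bx.mk 281475018653696 8388608 281475027042304 16777216 281475127705600 16777216 281475010265088 33554432) = true := by
  decide +kernel

open Tr in
theorem c362 : chk T1 gs1 (s3 (s0 (s1 l (s2 l l)) (s1 (s2 l l) (s2 l l))) (s0 (s2 (s1 l l) (s1 l l)) (s2 (s1 l l) (s1 l l))))
    (Bx.mk 281475018653696 8388608 281474993487872 16777216 281475161260032 16777216 281475010265088 33554432) = true := by
  decide +kernel

open Tr in
theorem c363 : chk T1 gs1 (s3 (s0 (s2 (s1 l l) (s1 l l)) (s2 (s1 l l) (s1 l l))) (s0 (s2 (s1 l (s3 l l)) (s1 l (s3 l l))) (s2 (s1 (s3 l l) (s3 l l)) (s1 (s3 l l) (s3 l l)))))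
    (Bx.mk 281475018653696 8388608 281475027042304 16777216 281475161260032 16777216 281475010265088 33554432) = true := by
  decide +kernel

open Tr in
theorem c364 : chk T1 gs1 (s0 (s1 (s2 l l) (s2 l (s3 l l))) (s1 (s2 (s3 l l) (s3 l l)) (s2 (s3 l l) (s3 l l))))
    (Bx.mk 281475018653696 8388608 281474993487872 16777216 281475127705600 16777216 281475060596736 16777216) = true := by
  decide +kernel

open Tr in
theorem c365 : chk T1 gs1 (s0 (s2 (s1 (s3 l l) (s3 l l)) (s1 (s3 l l) (s3 l l))) (s2 (s1 (s3 l l) (s3 l (s1 l l))) (s1 (s3 l l) (s3 l (s1 l l)))))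
    (Bx.mk 281475018653696 8388608 281475027042304 16777216 281475127705600 16777216 281475060596736 16777216) = true := by
  decide +kernel

open Tr in
theorem c366 : chk T1 gs1 (s0 (s2 (s1 (s3 l l) (s3 l l)) (s1 (s3 l l) (s3 l l))) (s2 (s1 (s3 l l) (s3 l l)) (s1 (s3 l l) (s3 l (s2 l (d 3))))))
    (Bx.mk 281475018653696 8388608 281474993487872 16777216 281475127705600 16777216 281475094151168 16777216) = true := by
  decide +kernel

open Tr in
theorem c367 : chk T1 gs1 (s0 (s2 (s3 (s1 l (s1 l l)) (s1 (s1 l l) (s1 l l))) (s3 (s1 l (s1 l l)) (s2 (s1 l l) (d 3)))) (s2 (s3 (s1 (s1 l l) (s1 l l)) (s1 (s1 l l) (s0 l l))) (s3 (s1 (s1 l l) (s0 l l)) (s2 (s3 (s1 l l) (d 3)) (d 3)))))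
    (Bx.mk 281475018653696 8388608 281475027042304 16777216 281475127705600 16777216 281475094151168 16777216) = true := by
  decide +kernel

end D2

end Vale.Agent.Lib.P154
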