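import Vale.Agent.Lib.P154.Prog2

/-! Generated certificates. -/

namespace Vale.Agent.Lib.P154

namespace D2

open Tr in
theorem c368 : chk T1 gs1 (s0 (s2 (s1 l (s3 l l)) (s1 l (s3 l l))) (s2 (s1 (s3 l l) (s3 l l)) (s1 (s3 l l) (s3 l l))))
    (Bx.mk 281475018653696 8388608 281474993487872 16777216 281475161260032 16777216 281475060596736 16777216) = true := by
  decide +kernel

open Tr in
theorem c369 : chk T1 gs1 (s0 (s2 (s1 (s3 l l) (s3 l (s1 l l))) (s1 (s3 l l) (s3 l (s2 l (d 3))))) (s2 (s1 (s3 l (s1 l l)) (s3 (s1 l l) (s1 l l))) (s1 (s3 l (s2 l (d 3))) (s3 (s1 l l) (s2 l (d 3))))))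
    (Bx.mk 281475018653696 8388608 281475027042304 16777216 281475161260032 16777216 281475060596736 16777216) = true := by
  decide +kernel

open Tr in
theorem c370 : chk T1 gs1 (s3 (s2 (s2 (s3 (s1 (s0 l l) (s2 (s0 l (s3 l (d 3))) (d 3))) (d 3)) (d 3)) (d 3)) (d 3))
    (Bx.mk 281475018653696 8388608 281475010265088 33554432 281475161260032 16777216 281475094151168 16777216) = true := by
  decide +kernel

open Tr in
theorem c371 : chk T1 gs1 (s3 (s0 (s2 (s1 l l) (s1 l l)) (s2 (s1 l l) (s1 l l))) (s0 (s2 (s3 l (s1 l l)) (s3 (s1 l l) (s1 l l))) (s2 (s3 (s1 l l) (s1 l l)) (s3 (s1 l l) (s1 l (s1 l l))))))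
    (Bx.mk 281475018653696 8388608 281475060596736 16777216 281475127705600 16777216 281475010265088 33554432) = true := by
  decide +kernel

open Tr in
theorem c372 : chk T1 gs1 (s3 (s0 (s3 l (s1 l l)) (s3 (s1 l l) (s1 l l))) (s0 (s2 (s3 l (s1 l l)) (s3 (s1 l l) (s1 l l))) (s2 (s3 (s1 l l) (s1 l l)) (s3 (s1 l l) (s1 (s1 l l) (s1 l l))))))
    (Bx.mk 281475018653696 8388608 281475094151168 16777216 281475127705600 16777216 281475010265088 33554432) = true := by
  decide +kernel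

open Tr in
theorem c373 : chk T1 gs1 (s3 (s0 (s2 (s1 l l) (s1 l l)) (s2 (s1 l (s3 l l)) (s3 l (s1 l l)))) (s0 (s2 (s3 (s1 l l) (s1 l l)) (s1 (s3 l l) (s3 l l))) (s2 (s1 (s3 l (s1 l l)) (s3 l (s1 l l))) (s1 (s3 l (s1 l l)) (s3 l (s1 l l))))))
    (Bx.mk 281475018653696 8388608 281475060596736 16777216 281475161260032 16777216 281475010265088 33554432) = true := by
  decide +kernel

open Tr in
theorem c374 : chk T1 gs1 (s0 (s2 (s1 l l) (s1 (s3 l l) l)) (s2 (s3 l (s1 l l)) (s3 l (s1 l l))))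
    (Bx.mk 281475018653696 8388608 281475094151168 16777216 281475161260032 16777216 281474993487872 16777216) = true := by
  decide +kernel

open Tr in
theorem c375 : chk T1 gs1 (s0 (s2 (s3 (s1 l l) (s1 (s1 l l) (s1 l l))) (s3 (s1 l l) (s1 (s1 l l) (s1 l l)))) (s2 (s3 (s1 l l) (s1 (s1 l l) (s2 l l))) (s3 (s1 (s1 l l) (s1 l l)) (s1 (s2 l l) (s2 l l)))))
    (Bx.mk 281475018653696 8388608 281475094151168 16777216 281475161260032 16777216 281475027042304 16777216) = true := by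
  decide +kernel

open Tr in
theorem c376 : chk T1 gs1 (s2 (s3 (s1 l l) (s1 (s1 l l) (s2 l l))) (s3 (s1 l (s1 l l)) (s1 (s1 l l) (s0 l l))))
    (Bx.mk 281475014459392 4194304 281475060596736 16777216 281475127705600 16777216 281475060596736 16777216) = true := by
  decide +kernel

open Tr in
theorem c377 : chk T1 gs1 (s2 (s3 (s1 (s1 l l) (s1 l l)) (s1 (s2 l l) (s0 l (s1 l l)))) (s3 (s1 (s1 l l) (s0 l l)) (s1 (s0 l l) (s0 (s1 l l) (s1 l l)))))
    (Bx.mk 281475022848000 4194304 281475060596736 16777216 281475127705600 16777216 281475060596736 16777216) = true := by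
  decide +kernel

open Tr in
theorem c378 : chk T1 gs1 (s2 (s3 (s1 (s1 l l) (s1 l l)) (s1 (s0 l l) (s0 l l))) (s3 (s1 (s2 l l) (s2 l l)) (s1 (s0 l (s1 l l)) (s0 l (s1 l l)))))
    (Bx.mk 281475014459392 4194304 281475094151168 16777216 281475127705600 16777216 281475060596736 16777216) = true := by
  decide +kernel

open Tr in
theorem c379 : chk T1 gs1 (s2 (s3 (s1 (s2 l l) (s0 l l)) (s1 (s0 (s1 l l) (s1 l l)) (s0 (s1 l l) (s1 l l)))) (s3 (s1 (s0 l (s1 l l)) (s0 l (s1 l l))) (s1 (s0 (s1 l l) (s2 l l)) (s0 (s1 l l) (s2 l l)))))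
    (Bx.mk 281475022848000 4194304 281475094151168 16777216 281475127705600 16777216 281475060596736 16777216) = true := by
  decide +kernel

open Tr in
theorem c380 : chk T1 gs1 (s2 (s3 (s1 (s2 l l) (s0 l (s1 l l))) (s1 (s0 l (s1 l l)) (s0 (s1 l l) (s1 l l)))) (s3 (s1 (s0 l l) (s0 l (s1 l l))) (s2 (s3 (s1 l l) (d 3)) (d 3))))
    (Bx.mk 281475014459392 4194304 281475060596736 16777216 281475127705600 16777216 281475094151168 16777216) = true := by
  decide +kernel

open Tr in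
theorem c381 : chk T1 gs1 (s2 (s3 (s1 (s0 l (s1 l l)) (s0 (s1 l l) (s1 l l))) (s1 (s0 (s1 l l) (s1 l l)) (s0 (s2 l l) (s2 (s1 l l) (s1 l l))))) (s3 (s1 (s0 (s1 l l) (s1 l l)) (s0 (s1 l l) (s2 l l))) (s3 (s2 (s2 (s1 l l) (d 3)) (d 3)) (d 3))))
    (Bx.mk 281475022848000 4194304 281475060596736 16777216 281475127705600 16777216 281475094151168 16777216) = true := by
  decide +kernel

open Tr in
theorem c382 : chk T1 gs1 (s2 (s3 (s1 (s0 (s1 l l) (s1 l l)) (s0 (s1 l l) (s1 l l))) (s0 (s1 (s1 l l) (s2 l l)) (s1 (s2 l l) (s2 l (s1 l l))))) (s3 (s0 (s1 (s1 l l) (s1 l l)) (s1 (s1 l l) (s2 l l))) (s3 (s2 (s2 (s1 l l) (d 3)) (d 3)) (d 3))))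
    (Bx.mk 281475014459392 4194304 281475094151168 16777216 281475127705600 16777216 281475094151168 16777216) = true := by
  decide +kernel

open Tr in
theorem c383 : chk T1 gs1 (s3 (s1 (s0 (s2 l l) (s3 l (s1 l l))) (s0 (s2 l l) (s2 (s1 l l) (s1 l l)))) (s1 (s0 (s2 (s1 l l) (s1 l l)) (s2 (s1 l l) (s1 l l))) (s0 (s2 (s1 l l) (s1 l l)) (s2 (s1 l l) (s1 l l)))))
    (Bx.mk 281475022848000 4194304 281475094151168 16777216 281475119316992 8388608 281475094151168 16777216) = true := by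
  decide +kernel

end D2

end Vale.Agent.Lib.P154
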