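import Vale.Agent.Lib.P154.Prog2

/-! Generated certificates. -/

namespace Vale.Agent.Lib.P154

namespace D2

open Tr in
theorem c400 : chk T1 gs1 (s3 (d 1) (s1 (s2 (s3 (d 1) (s1 l l)) (s1 (s3 (s2 (d 1) l) (s1 l l)) (s3 (s2 (d 1) l) l))) (s2 (s3 (d 1) (s1 l l)) (s3 (s3 (d 1) l) (s1 l l)))))
    (Bx.mk 281475035430912 8388608 281475043819520 67108864 281475010265088 33554432 281474909601792 67108864) = true := by
  decide +kernel

open Tr in
theorem c401 : chk T1 gs1 (s3 (s3 (d 1) (s2 (d 1) (s2 (d 1) (s3 (d 1) (s1 l l))))) (s2 (s1 (s3 (s1 l l) (s0 l l)) (s3 (s1 l l) (s1 l l))) (s1 (s3 (s0 l (s1 l l)) (s0 (s1 l l) (s1 l l))) (s3 (s1 l l) (s0 (s1 l l) (s1 l l))))))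
    (Bx.mk 281475035430912 8388608 281475010265088 33554432 281475077373952 33554432 281474909601792 67108864) = true := by
  decide +kernel

open Tr in
theorem c402 : chk T1 gs1 (s3 (s3 (d 1) (s2 (d 1) (s3 (d 1) (s1 l l)))) (s2 (s1 (s3 l (s1 l l)) (s3 l l)) (s1 (s3 (s1 l l) (s0 l (s1 l l))) (s3 (s1 l l) (s0 l l)))))
    (Bx.mk 281475035430912 8388608 281475077373952 33554432 281475077373952 33554432 281474909601792 67108864) = true := by
  decide +kernel

open Tr in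
theorem c403 : chk T1 gs1 (s3 (s1 (s2 (s3 (s1 l l) (s2 (d 0) l)) (s3 (s1 l l) (s0 (s1 l l) (s1 l l)))) (s2 (s3 l (s2 (d 0) l)) (s3 (s1 l l) (s0 l (s1 l l))))) (s3 (s2 (d 0) (s3 (s2 (d 0) (s3 (s1 l l) (d 0))) (d 0))) (d 0)))
    (Bx.mk 281475035430912 8388608 281475010265088 33554432 281475010265088 33554432 281475043819520 67108864) = true := by
  decide +kernel

open Tr in
theorem c404 : chk T1 gs1 (s2 (s3 (s0 (s1 l l) (s1 l l)) (s0 (s1 l l) (s1 l l))) (s3 (s0 (s1 l l) (s1 l l)) (s0 (s1 (s2 l l) (s2 l l)) (s1 (s2 l l) (s2 l l)))))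
    (Bx.mk 281475035430912 8388608 281474993487872 16777216 281475077373952 33554432 281475010265088 33554432) = true := by
  decide +kernel

open Tr in
theorem c405 : chk T1 gs1 (s2 (s3 (s0 l (s1 l l)) (s0 (s1 l l) (s2 l (s1 l l)))) (s3 (s0 (s1 l l) (s1 l l)) (s0 (s1 (s2 l l) (s2 l (s3 l l))) (s1 (s2 l (s3 l l)) (s2 l (s3 l l))))))
    (Bx.mk 281475035430912 8388608 281475027042304 16777216 281475077373952 33554432 281475010265088 33554432) = true := by
  decide +kernel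

open Tr in
theorem c406 : chk T1 gs1 (s3 (s0 (s1 (s2 l l) (s2 l l)) (s1 (s2 l l) (s2 l l))) (s3 (s2 (d 0) (s3 (s1 l l) (d 0))) (d 0)))
    (Bx.mk 281475035430912 8388608 281474993487872 16777216 281475060596736 16777216 281475077373952 33554432) = true := by
  decide +kernel

open Tr in
theorem c407 : chk T1 gs1 (s0 (s1 (s2 l (s3 l l)) (s2 l (s3 l l))) (s1 (s2 l (s3 l l)) (s2 (s3 l l) (s3 l l))))
    (Bx.mk 281475035430912 8388608 281474993487872 16777216 281475094151168 16777216 281475060596736 16777216) = true := by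
  decide +kernel

open Tr in
theorem c408 : chk T1 gs1 (s0 (s1 (s2 (s3 l l) (s3 l l)) (s2 (s3 l l) (s3 l (s1 l l)))) (s1 (s2 (s3 l l) (s3 l l)) (s2 (s3 l (s2 (d 0) l)) (s3 (s1 l l) (s1 l l)))))
    (Bx.mk 281475035430912 8388608 281474993487872 16777216 281475094151168 16777216 281475094151168 16777216) = true := by
  decide +kernel

open Tr in
theorem c409 : chk T1 gs1 (s3 (s0 (s1 (s2 l l) (s2 l (s3 l l))) (s1 (s2 l (s3 l l)) (s2 l (s3 l l)))) (s3 (s2 (d 0) (s3 (s2 (d 0) (s0 l l)) (d 0))) (d 0)))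
    (Bx.mk 281475035430912 8388608 281475027042304 16777216 281475060596736 16777216 281475077373952 33554432) = true := by
  decide +kernel

open Tr in
theorem c410 : chk T1 gs1 (s0 (s1 (s2 (s3 l l) (s3 l l)) (s3 (s2 l l) (s2 l (s1 l l)))) (s1 (s3 (s2 l l) (s2 l l)) (s2 (s3 l l) (s3 l (s1 l l)))))
    (Bx.mk 281475035430912 8388608 281475027042304 16777216 281475094151168 16777216 281475060596736 16777216) = true := by
  decide +kernel

open Tr in
theorem c411 : chk T1 gs1 (s0 (s1 (s2 (s3 l (s2 (d 0) l)) (s3 (s1 l l) (s1 l l))) (s2 (s3 (s1 l l) (s2 (d 0) l)) (s3 (s1 l l) (s0 l (s1 l l))))) (s1 (s2 (s3 (s1 l l) (s2 (d 0) l)) (s3 (s1 l l) (s0 l (s0 l (d 4))))) (s2 (s3 (s1 l l) (s3 (s2 (d 0) l) (d 0))) (s3 (s0 l (s0 l (d 4))) (s0 (s1 l l) (s0 l (d 4)))))))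
    (Bx.mk 281475035430912 8388608 281475027042304 16777216 281475094151168 16777216 281475094151168 16777216) = true := by
  decide +kernel

open Tr in
theorem c412 : chk T1 gs1 (s3 (s2 (s3 (s1 l l) (s1 l l)) (s3 (s1 l l) (s1 (s0 l (s1 l l)) (s0 l l)))) (s3 (s3 (s2 (d 0) (s3 (s2 (d 0) (s1 l l)) (d 0))) (d 0)) (d 0)))
    (Bx.mk 281475035430912 8388608 281475077373952 33554432 281475010265088 33554432 281475043819520 67108864) = true := by
  decide +kernel

open Tr in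
theorem c413 : chk T1 gs1 (s2 (s3 (s0 l (s1 l l)) (s0 (s2 l (s1 l l)) (s2 l (s1 l l)))) (s3 (s0 (s1 l l) (s2 l (s1 l l))) (s0 (s2 (s1 l l) (s3 l (s1 l l))) (s2 (s1 l (s3 l l)) (s3 (s1 l l) (s1 l l))))))
    (Bx.mk 281475035430912 8388608 281475060596736 16777216 281475077373952 33554432 281475010265088 33554432) = true := by
  decide +kernel

open Tr in
theorem c414 : chk T1 gs1 (s2 (s3 (s0 l l) (s0 (s2 l (s1 l l)) (s2 l (s1 l l)))) (s3 (s0 (s1 l l) (s2 l (s1 l l))) (s0 (s2 (s3 l (s1 l l)) (s3 l (s1 l l))) (s2 (s3 l (s1 l l)) (s3 (s1 l l) (s1 l l))))))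
    (Bx.mk 281475035430912 8388608 281475094151168 16777216 281475077373952 33554432 281475010265088 33554432) = true := by
  decide +kernel

open Tr in
theorem c415 : chk T1 gs1 (s3 (s0 (s2 (s1 l (s3 l l)) (s3 (s1 l l) (s1 l l))) (s2 (s3 l (s2 (d 0) l)) (s3 (s1 l l) (s1 l (s1 l l))))) (s3 (s3 (s2 (d 0) (s2 (d 0) (s3 (s0 l (s2 (d 0) l)) (d 0)))) (d 0)) (d 0)))
    (Bx.mk 281475035430912 8388608 281475060596736 16777216 281475060596736 16777216 281475077373952 33554432) = true := by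
  decide +kernel

end D2

end Vale.Agent.Lib.P154
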