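import Vale.Agent.Lib.P154.Prog2

/-! Generated certificates. -/

namespace Vale.Agent.Lib.P154

namespace D2

open Tr in
theorem c432 : chk T1 gs1 (s3 (s0 (s1 l l) (s2 (s1 l l) (s1 l l))) (s0 (s2 (s1 l l) (s1 l l)) (s1 (s2 l l) (s2 l l))))
    (Bx.mk 281475035430912 8388608 281475027042304 16777216 281475194814464 16777216 281474943156224 33554432) = true := by
  decide +kernel

open Tr in
theorem c433 : chk T1 gs1 (s3 (s0 (s2 (s1 l l) (s1 l l)) (s2 (s1 l l) (s1 l l))) (s0 (s2 (s1 l l) (s1 l l)) (s2 (s1 l l) (s1 l (s3 l l)))))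
    (Bx.mk 281475035430912 8388608 281475027042304 16777216 281475228368896 16777216 281474943156224 33554432) = true := by
  decide +kernel

open Tr in
theorem c434 : chk T1 gs1 (s2 (s3 (d 1) (s1 (s2 l (s1 l l)) (s1 l l))) (s1 (s3 (s2 (d 1) (s3 (d 1) l)) (s0 (s1 l l) (s1 l l))) (s3 (s2 (d 1) (s3 (d 1) l)) (s2 l (s1 l l)))))
    (Bx.mk 281475035430912 8388608 281475077373952 33554432 281475144482816 33554432 281474876047360 33554432) = true := by
  decide +kernel

open Tr in
theorem c435 : chk T1 gs1 (s2 (s3 (s0 (s1 l l) (s1 l l)) (s0 (s1 l l) (s1 l l))) (s3 (s0 (s1 l l) (s1 l l)) (s0 (s2 (s1 l l) (s1 l l)) (s2 (s1 l l) (s1 l l)))))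
    (Bx.mk 281475035430912 8388608 281475060596736 16777216 281475144482816 33554432 281474943156224 33554432) = true := by
  decide +kernel

open Tr in
theorem c436 : chk T1 gs1 (s2 (s3 (s0 l l) (s0 (s1 l l) (s1 l l))) (s3 (s0 (s1 l l) (s1 l l)) (s0 (s2 (s1 l l) (s1 l l)) (s2 (s1 l l) (s1 l l)))))
    (Bx.mk 281475035430912 8388608 281475094151168 16777216 281475144482816 33554432 281474943156224 33554432) = true := by
  decide +kernel

open Tr in
theorem c437 : chk T1 gs1 (s2 (s3 (s0 (s1 l l) (s1 l l)) (s0 (s1 l l) (s1 l l))) (s3 (s0 (s1 l l) (s1 l l)) (s0 (s1 l l) (s2 l (s1 l l)))))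
    (Bx.mk 281475035430912 8388608 281475060596736 16777216 281475211591680 33554432 281474876047360 33554432) = true := by
  decide +kernel

open Tr in
theorem c438 : chk T1 gs1 (s2 (s3 (s0 (s1 l l) (s1 l l)) (s0 (s1 l l) (s1 l l))) (s3 (s0 (s1 l l) (s1 l l)) (s0 (s1 l l) (s2 l (s1 l l)))))
    (Bx.mk 281475035430912 8388608 281475094151168 16777216 281475211591680 33554432 281474876047360 33554432) = true := by
  decide +kernel

open Tr in
theorem c439 : chk T1 gs1 (s3 (s0 (s2 l (s1 l l)) (s2 (s1 l l) (s1 l l))) (s0 (s2 (s1 l l) (s1 l l)) (s2 (s1 l l) (s1 l (s3 l l)))))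
    (Bx.mk 281475035430912 8388608 281475060596736 16777216 281475194814464 16777216 281474943156224 33554432) = true := by
  decide +kernel

open Tr in
theorem c440 : chk T1 gs1 (s3 (s0 (s2 (s1 l l) (s1 l l)) (s2 (s1 l l) (s1 l l))) (s0 (s2 (s1 l l) (s1 l l)) (s2 (s1 (s3 l l) (s3 l l)) (s1 (s3 l l) (s3 l l)))))
    (Bx.mk 281475035430912 8388608 281475060596736 16777216 281475228368896 16777216 281474943156224 33554432) = true := by
  decide +kernel

open Tr in
theorem c441 : chk T1 gs1 (s3 (s0 (s2 l (s1 l l)) (s2 (s1 l l) (s1 l l))) (s0 (s2 (s1 l l) (s1 l l)) (s2 (s1 l l) (s3 l (s1 l l)))))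
    (Bx.mk 281475035430912 8388608 281475094151168 16777216 281475194814464 16777216 281474943156224 33554432) = true := by
  decide +kernel

open Tr in
theorem c442 : chk T1 gs1 (s3 (s0 (s2 (s1 l l) (s1 l l)) (s2 (s1 l l) (s1 l l))) (s0 (s2 (s1 l l) (s1 l l)) (s2 (s1 (s3 l l) (s3 l l)) (s1 (s3 l l) (s3 l l)))))
    (Bx.mk 281475035430912 8388608 281475094151168 16777216 281475228368896 16777216 281474943156224 33554432) = true := by
  decide +kernel

open Tr in
theorem c443 : chk T1 gs1 (s3 (s0 (s1 (s2 l l) (s2 l l)) (s1 (s2 l l) (s2 l l))) (s0 (s1 (s2 l l) (s2 l (s3 l l))) (s1 (s2 l (s3 l l)) (s2 (s3 l l) (s3 l l)))))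
    (Bx.mk 281475035430912 8388608 281474993487872 16777216 281475127705600 16777216 281475010265088 33554432) = true := by
  decide +kernel

open Tr in
theorem c444 : chk T1 gs1 (s3 (s0 (s1 (s2 l l) (s2 l l)) (s1 (s2 l l) (s2 l l))) (s0 (s1 (s2 l l) (s2 (s3 l l) (s3 l l))) (s1 (s2 (s3 l l) (s3 l l)) (s2 (s3 l l) (s3 l l)))))
    (Bx.mk 281475035430912 8388608 281474993487872 16777216 281475161260032 16777216 281475010265088 33554432) = true := by
  decide +kernel

open Tr in
theorem c445 : chk T1 gs1 (s3 (s0 (s1 (s2 l l) (s2 l l)) (s1 (s2 l l) (s2 l l))) (s0 (s1 (s2 (s3 l l) (s3 l l)) (s2 (s3 l l) (s3 l l))) (s1 (s2 (s3 l l) (s3 l l)) (s2 (s3 l l) (s3 l (s1 l l))))))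
    (Bx.mk 281475035430912 8388608 281475027042304 16777216 281475127705600 16777216 281475010265088 33554432) = true := by
  decide +kernel

open Tr in
theorem c446 : chk T1 gs1 (s0 (s2 (s1 l l) (s1 l (s3 l l))) (s1 (s2 l (s3 l l)) (s2 (s3 l l) (s3 l l))))
    (Bx.mk 281475035430912 8388608 281475027042304 16777216 281475161260032 16777216 281474993487872 16777216) = true := by
  decide +kernel

open Tr in
theorem c447 : chk T1 gs1 (s0 (s2 (s1 (s3 l l) (s3 l l)) (s1 (s3 l l) (s3 l (s1 l l)))) (s2 (s1 (s3 l l) (s3 l (s1 l l))) (s1 (s3 l (s1 l l)) (s3 (s1 l l) (s1 l l)))))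
    (Bx.mk 281475035430912 8388608 281475027042304 16777216 281475161260032 16777216 281475027042304 16777216) = true := by
  decide +kernel

end D2

end Vale.Agent.Lib.P154
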