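import Vale.Agent.Lib.P154.Prog2

/-! Generated certificates. -/

namespace Vale.Agent.Lib.P154

namespace D2

open Tr in
theorem c448 : chk T1 gs1 (s0 (s1 (s2 (s3 l l) (s3 l l)) (s2 (s3 l l) (s3 l l))) (s1 (s2 (s3 l l) (s3 l l)) (s2 (s3 l l) (s3 l (s1 l l)))))
    (Bx.mk 281475035430912 8388608 281474993487872 16777216 281475127705600 16777216 281475060596736 16777216) = true := by
  decide +kernel

open Tr in
theorem c449 : chk T1 gs1 (s0 (s2 (s1 (s3 l (s1 l l)) (s3 l (s1 l l))) (s1 (s3 l (s1 l l)) (s3 (s1 l l) (s2 l l)))) (s1 (s2 (s3 l (s1 l l)) (s3 (s1 l l) (s1 l l))) (s2 (s3 (s1 l l) (s0 l (s0 l (d 4)))) (s3 (s1 l l) (s0 (s1 l l) (s0 l (d 4)))))))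
    (Bx.mk 281475035430912 8388608 281475027042304 16777216 281475127705600 16777216 281475060596736 16777216) = true := by
  decide +kernel

open Tr in
theorem c450 : chk T1 gs1 (s0 (s1 (s2 (s3 l l) (s3 l l)) (s2 (s3 l (s1 l l)) (s3 (s1 l l) (s2 l (d 3))))) (s1 (s2 (s3 l (s1 l l)) (s3 (s1 l l) (s2 l (d 3)))) (s2 (s3 (s1 l l) (s1 l l)) (s3 (s1 l l) (s2 (s3 l (d 3)) (d 3))))))
    (Bx.mk 281475035430912 8388608 281474993487872 16777216 281475127705600 16777216 281475094151168 16777216) = true := by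
  decide +kernel

open Tr in
theorem c451 : chk T1 gs1 (s2 (s1 (s3 (s1 l l) (s0 l l)) (s3 (s0 l l) (s0 (s1 l l) (s1 l l)))) (s3 (s1 (s1 l l) (s0 l (s1 l l))) (s2 (s3 (s1 l l) (d 3)) (d 3))))
    (Bx.mk 281475031236608 4194304 281475027042304 16777216 281475127705600 16777216 281475094151168 16777216) = true := by
  decide +kernel

open Tr in
theorem c452 : chk T1 gs1 (s2 (s1 (s3 (s0 l l) (s0 (s1 l l) (s0 l (d 4)))) (s3 (s0 (s1 l l) (s0 l (d 4))) (s0 (s1 l l) (s0 (s0 l (d 4)) (d 4))))) (s1 (s3 (s0 l (s0 l (d 4))) (s2 (s3 l (d 3)) (d 3))) (s3 (s0 (s1 l l) (s0 (s0 l (d 4)) (d 4))) (s2 (s3 (s2 l (d 3)) (d 3)) (d 3)))))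
    (Bx.mk 281475039625216 4194304 281475027042304 16777216 281475127705600 16777216 281475094151168 16777216) = true := by
  decide +kernel

open Tr in
theorem c453 : chk T1 gs1 (s3 (s0 (s2 (s1 (s3 l l) (s3 l l)) (s1 (s3 l l) (s3 l (s2 l (d 3))))) (s1 (s2 (s3 l (s1 l l)) (s3 l (s2 l (d 3)))) (s2 (s3 (s1 l l) (s1 l l)) (s3 (s1 l l) (s2 l (d 3)))))) (s2 (s3 (s2 (s3 (s2 (s0 l (s3 l (d 3))) (d 3)) (d 3)) (d 3)) (d 3)) (d 3)))
    (Bx.mk 281475035430912 8388608 281474993487872 16777216 281475161260032 16777216 281475077373952 33554432) = true := by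
  decide +kernel

open Tr in
theorem c454 : chk T1 gs1 (s0 (s2 (s1 (s3 l (s1 l l)) (s3 (s1 l l) (s0 l l))) (s1 (s3 (s1 l l) (s2 l (d 3))) (s3 (s1 l l) (s0 l l)))) (s2 (s1 (s3 (s1 l l) (s0 l (s0 l (d 4)))) (s3 (s0 l (s0 l (d 4))) (s0 (s1 l l) (s0 l (d 4))))) (s1 (s3 (s1 l l) (s2 (s3 l (d 3)) (d 3))) (s3 (s0 l (s0 l (d 4))) (s2 (s3 l (d 3)) (d 3))))))
    (Bx.mk 281475035430912 8388608 281475027042304 16777216 281475161260032 16777216 281475060596736 16777216) = true := by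
  decide +kernel

open Tr in
theorem c455 : chk T1 gs1 (s3 (s2 (s3 (s2 (s2 (s3 (s2 (s0 l (s1 l l)) (d 3)) (d 3)) (d 3)) (d 3)) (d 3)) (d 3)) (d 3))
    (Bx.mk 281475035430912 8388608 281475027042304 16777216 281475161260032 16777216 281475094151168 16777216) = true := by
  decide +kernel

open Tr in
theorem c456 : chk T1 gs1 (s0 (s2 (s1 l l) (s1 l l)) (s1 (s2 l (s3 l l)) (s2 l (s3 l l))))
    (Bx.mk 281475035430912 8388608 281475060596736 16777216 281475127705600 16777216 281474993487872 16777216) = true := by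
  decide +kernel

open Tr in
theorem c457 : chk T1 gs1 (s0 (s2 (s3 (s1 l l) (s1 l l)) (s1 (s3 l (s1 l l)) (s3 l (s1 l l)))) (s1 (s2 (s3 l l) (s3 l (s1 l l))) (s2 (s3 l (s1 l l)) (s3 l (s0 l l)))))
    (Bx.mk 281475035430912 8388608 281475060596736 16777216 281475127705600 16777216 281475027042304 16777216) = true := by
  decide +kernel

open Tr in
theorem c458 : chk T1 gs1 (s0 (s2 (s3 l (s1 l l)) (s1 (s3 l l) (s3 l l))) (s2 (s1 (s3 l l) (s3 l l)) (s1 (s3 l l) (s3 l l))))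
    (Bx.mk 281475035430912 8388608 281475060596736 16777216 281475161260032 16777216 281474993487872 16777216) = true := by
  decide +kernel

open Tr in
theorem c459 : chk T1 gs1 (s2 (s1 (s3 l (s1 l l)) (s3 l (s2 l l))) (s1 (s3 l (s1 l l)) (s3 (s1 l l) (s2 l l))))
    (Bx.mk 281475031236608 4194304 281475060596736 16777216 281475161260032 16777216 281475027042304 16777216) = true := by
  decide +kernel

open Tr in
theorem c460 : chk T1 gs1 (s2 (s1 (s3 (s1 l l) (s2 l l)) (s3 (s1 l l) (s0 l (s0 l (d 4))))) (s1 (s3 (s1 l l) (s0 l (s0 l (d 4)))) (s3 (s1 l l) (s0 (s1 l l) (s0 l (d 4))))))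
    (Bx.mk 281475039625216 4194304 281475060596736 16777216 281475161260032 16777216 281475027042304 16777216) = true := by
  decide +kernel

open Tr in
theorem c461 : chk T1 gs1 (s0 (s2 (s1 l l) (s1 l l)) (s2 (s1 l l) (s3 l (s1 l l))))
    (Bx.mk 281475035430912 8388608 281475094151168 16777216 281475127705600 16777216 281474993487872 16777216) = true := by
  decide +kernel

open Tr in
theorem c462 : chk T1 gs1 (s0 (s2 (s3 (s1 l l) (s1 (s1 l l) (s1 l l))) (s3 (s1 l l) (s1 (s1 l l) (s2 l l)))) (s2 (s3 (s1 l l) (s1 (s1 l l) (s1 l l))) (s3 (s1 (s1 l l) (s1 l l)) (s1 (s0 l (s0 l (d 4))) (s0 l (s0 l (d 4)))))))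
    (Bx.mk 281475035430912 8388608 281475094151168 16777216 281475127705600 16777216 281475027042304 16777216) = true := by
  decide +kernel

open Tr in
theorem c463 : chk T1 gs1 (s0 (s2 (s3 l (s1 l l)) (s3 (s1 l l) (s1 l l))) (s2 (s3 (s1 l l) (s1 l l)) (s1 (s3 l (s1 l l)) (s3 l (s1 l l)))))
    (Bx.mk 281475035430912 8388608 281475094151168 16777216 281475161260032 16777216 281474993487872 16777216) = true := by
  decide +kernel

end D2

end Vale.Agent.Lib.P154
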