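import Vale.Agent.Lib.P154.Prog2

/-! Generated certificates. -/

namespace Vale.Agent.Lib.P154

namespace D2

open Tr in
theorem c464 : chk T1 gs1 (s2 (s3 (s1 (s1 l l) (s1 l l)) (s1 (s0 l l) (s0 l l))) (s3 (s1 (s1 l l) (s1 l l)) (s1 (s0 l (s1 l l)) (s0 l (s1 l l)))))
    (Bx.mk 281475031236608 4194304 281475094151168 16777216 281475161260032 16777216 281475027042304 16777216) = true := by
  decide +kernel

open Tr in
theorem c465 : chk T1 gs1 (s2 (s3 (s1 (s1 l l) (s1 l l)) (s1 (s0 (s1 l l) (s0 l (d 4))) (s0 (s1 l l) (s0 l (d 4))))) (s1 (s3 (s2 l l) (s0 (s1 l l) (s0 l (d 4)))) (s3 (s2 l l) (s0 (s1 l l) (s1 l l)))))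
    (Bx.mk 281475039625216 4194304 281475094151168 16777216 281475161260032 16777216 281475027042304 16777216) = true := by
  decide +kernel

open Tr in
theorem c466 : chk T1 gs1 (s2 (s3 (s1 (s1 l l) (s0 l l)) (s1 (s0 l (s1 l l)) (s0 (s1 l l) (s1 l l)))) (s3 (s1 (s2 l l) (s0 l (s1 l l))) (s1 (s0 (s1 l l) (s1 l l)) (s0 (s1 l l) (s2 l l)))))
    (Bx.mk 281475031236608 4194304 281475060596736 16777216 281475127705600 16777216 281475060596736 16777216) = true := by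
  decide +kernel

open Tr in
theorem c467 : chk T1 gs1 (s2 (s1 (s3 (s0 l l) (s0 (s1 l l) (s0 l (d 4)))) (s3 (s0 l (s0 l (d 4))) (s0 (s1 l l) (s0 (s1 l l) (d 4))))) (s1 (s3 (s0 l (s0 l (d 4))) (s0 (s1 l l) (s0 (s0 l (d 4)) (d 4)))) (s3 (s0 (s1 l l) (s1 l l)) (s0 (s2 (s1 l l) (s1 l l)) (s0 (s1 l l) (d 4))))))
    (Bx.mk 281475039625216 4194304 281475060596736 16777216 281475127705600 16777216 281475060596736 16777216) = true := by
  decide +kernel

open Tr in
theorem c468 : chk T1 gs1 (s3 (s1 (s0 (s1 l l) (s1 l l)) (s0 (s2 l l) (s2 (s1 l l) (s1 l l)))) (s1 (s0 (s2 l l) (s2 l (s1 l l))) (s0 (s2 (s1 l l) (s1 l l)) (s2 (s1 l l) (s1 l l)))))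
    (Bx.mk 281475031236608 4194304 281475060596736 16777216 281475119316992 8388608 281475094151168 16777216) = true := by
  decide +kernel

open Tr in
theorem c469 : chk T1 gs1 (s3 (s1 (s0 (s1 l l) (s1 l l)) (s0 (s2 (s1 l l) (s1 l l)) (s2 (s1 l l) (s1 l l)))) (s3 (s2 (s2 (s1 l (s3 l (d 3))) (d 3)) (d 3)) (d 3)))
    (Bx.mk 281475031236608 4194304 281475060596736 16777216 281475136094208 8388608 281475094151168 16777216) = true := by
  decide +kernel

open Tr in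
theorem c470 : chk T1 gs1 (s3 (s1 (s0 (s1 l l) (s0 (s1 l l) (d 4))) (s0 (s2 (s1 l l) (s1 l l)) (s0 (s0 (s1 l l) (d 4)) (d 4)))) (s1 (s0 (s2 (s1 l l) (s1 l l)) (s0 (s0 (s1 l l) (d 4)) (d 4))) (s0 (s2 (s1 l l) (s3 l (s2 l (d 3)))) (s0 (s0 (s0 (s2 l l) (d 4)) (d 4)) (d 4)))))
    (Bx.mk 281475039625216 4194304 281475060596736 16777216 281475119316992 8388608 281475094151168 16777216) = true := by
  decide +kernel

open Tr in
theorem c471 : chk T1 gs1 (s3 (s1 (s0 (s1 l (s2 l l)) (s0 (s1 l l) (d 4))) (s0 (s2 (s1 l l) (s1 l l)) (s0 (s0 (s1 l l) (d 4)) (d 4)))) (s3 (s2 (s3 (s2 (s1 l (s1 l l)) (d 3)) (d 3)) (d 3)) (d 3)))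
    (Bx.mk 281475039625216 4194304 281475060596736 16777216 281475136094208 8388608 281475094151168 16777216) = true := by
  decide +kernel

open Tr in
theorem c472 : chk T1 gs1 (s3 (s1 (s0 l (s1 l l)) (s0 l (s1 l l))) (s1 (s0 (s1 l l) (s2 l (s1 l l))) (s0 (s2 l l) (s2 l (s1 l l)))))
    (Bx.mk 281475031236608 4194304 281475094151168 16777216 281475119316992 8388608 281475060596736 16777216) = true := by
  decide +kernel

open Tr in
theorem c473 : chk T1 gs1 (s3 (s1 (s0 (s1 l l) (s1 l l)) (s0 (s1 l l) (s1 l l))) (s1 (s0 (s2 l l) (s2 (s1 l l) (s1 l l))) (s0 (s3 l (s1 l l)) (s2 (s1 l l) (s1 l l)))))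
    (Bx.mk 281475031236608 4194304 281475094151168 16777216 281475136094208 8388608 281475060596736 16777216) = true := by
  decide +kernel

open Tr in
theorem c474 : chk T1 gs1 (s3 (s1 (s0 (s1 l l) (s0 l (d 4))) (s0 (s1 l l) (s1 l l))) (s1 (s0 (s3 l (s1 l l)) (s0 (s1 l l) (d 4))) (s0 (s3 (s1 l l) (s1 l l)) (s0 (s2 l l) (d 4)))))
    (Bx.mk 281475039625216 4194304 281475094151168 16777216 281475119316992 8388608 281475060596736 16777216) = true := by
  decide +kernel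

open Tr in
theorem c475 : chk T1 gs1 (s3 (s1 (s0 (s1 l l) (s0 (s0 l (d 4)) (d 4))) (s0 (s1 l l) (s0 (s1 l l) (d 4)))) (s1 (s0 (s2 (s1 l l) (s1 l l)) (s0 (s0 (s1 l l) (d 4)) (d 4))) (s0 (s2 (s1 l l) (s1 l l)) (s0 (s0 (s1 l l) (d 4)) (d 4)))))
    (Bx.mk 281475039625216 4194304 281475094151168 16777216 281475136094208 8388608 281475060596736 16777216) = true := by
  decide +kernel

open Tr in
theorem c476 : chk T1 gs1 (s1 (s0 (s2 (s1 l l) (s1 l l)) (s2 (s1 l l) (s1 l l))) (s0 (s2 (s1 l l) (s1 l l)) (s2 (s1 l l) (s1 l l))))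
    (Bx.mk 281475031236608 4194304 281475094151168 16777216 281475119316992 8388608 281475085762560 8388608) = true := by
  decide +kernel

open Tr in
theorem c477 : chk T1 gs1 (s1 (s0 (s2 (s1 l l) (s1 l l)) (s2 (s3 l l) (s3 l (s2 l (d 3))))) (s0 (s2 (s3 l l) (s3 l l)) (s2 (s3 l (s1 l l)) (s3 l (s2 l (d 3))))))
    (Bx.mk 281475031236608 4194304 281475094151168 16777216 281475119316992 8388608 281475102539776 8388608) = true := by
  decide +kernel

open Tr in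
theorem c478 : chk T1 gs1 (s3 (s1 (s0 (s2 (s1 l l) (s1 l l)) (s2 (s1 l l) (s1 l l))) (s0 (s2 (s1 l l) (s1 l l)) (s2 (s1 l l) (s1 l l)))) (s3 (s2 (s3 (s2 (s2 (s1 l l) (d 3)) (d 3)) (d 3)) (d 3)) (d 3)))
    (Bx.mk 281475031236608 4194304 281475094151168 16777216 281475136094208 8388608 281475094151168 16777216) = true := by
  decide +kernel

open Tr in
theorem c479 : chk T1 gs1 (s1 (s0 (s2 (s1 l l) (s1 l l)) (s0 (s0 (s0 (s1 l l) (d 4)) (d 4)) (d 4))) (s0 (s2 (s1 l l) (s3 l (s1 l l))) (s0 (s0 (s0 (s2 l (s1 l l)) (d 4)) (d 4)) (d 4))))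
    (Bx.mk 281475039625216 4194304 281475094151168 16777216 281475119316992 8388608 281475085762560 8388608) = true := by
  decide +kernel

end D2

end Vale.Agent.Lib.P154
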