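import Vale.Agent.Lib.P154.Prog2

/-! Generated certificates. -/

namespace Vale.Agent.Lib.P154

namespace D2

open Tr in
theorem c48 : chk T0 gs0 (s1 (s2 (s3 (d 1) (s1 (s0 l l) (s0 l l))) (s3 (s2 (d 1) (s3 (d 1) l)) (s1 (s0 l l) (s0 l l)))) (s2 (s3 (d 1) (s1 (s0 l l) (s0 l l))) (s3 (s2 (d 1) (s3 (d 1) l)) (s1 (s0 l l) (s0 l l)))))
    (Bx.mk 281475068985344 8388608 281474876047360 33554432 281475060596736 16777216 281474926379008 16777216) = true := by
  decide +kernel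

open Tr in
theorem c49 : chk T0 gs0 (s2 (s3 (s1 (s0 l l) (s0 l l)) (s1 (s0 l l) (s0 l l))) (s3 (s1 (s0 l l) (s0 l l)) (s1 (s0 l l) (s0 l l))))
    (Bx.mk 281475068985344 8388608 281474859270144 16777216 281475060596736 16777216 281474959933440 16777216) = true := by
  decide +kernel

open Tr in
theorem c50 : chk T0 gs0 (s2 (s3 (s1 (s0 l l) (s0 l l)) (s1 (s0 l l) (s0 l l))) (s3 (s1 (s0 l l) (s0 l l)) (s1 (s0 l l) (s0 l l))))
    (Bx.mk 281475068985344 8388608 281474892824576 16777216 281475060596736 16777216 281474959933440 16777216) = true := by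
  decide +kernel

open Tr in
theorem c51 : chk T0 gs0 (s1 (s2 (s3 (s1 l l) (s1 l l)) (s3 (s1 l l) (s1 l l))) (s2 (s3 (s1 l l) (s1 l l)) (s3 (s1 l l) (s1 l l))))
    (Bx.mk 281475068985344 8388608 281474876047360 33554432 281475094151168 16777216 281474926379008 16777216) = true := by
  decide +kernel

open Tr in
theorem c52 : chk T0 gs0 (s1 (s2 (s3 (s1 l (s0 l l)) (s1 l (s0 l l))) (s3 (s1 l l) (s1 l l))) (s2 (s3 (s1 l l) (s1 (s0 l l) l)) (s3 (s1 l l) (s1 l l))))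
    (Bx.mk 281475068985344 8388608 281474876047360 33554432 281475094151168 16777216 281474959933440 16777216) = true := by
  decide +kernel

open Tr in
theorem c53 : chk T0 gs0 (s2 (s3 (d 1) (s0 (s1 (s2 l l) (s2 l l)) (s1 (s2 l l) (d 4)))) (s0 (s3 (s2 (d 1) (s3 (d 1) l)) (s1 (s0 l l) (s0 l l))) (s1 (s3 (s2 (d 1) l) (s0 l l)) (d 4))))
    (Bx.mk 281475094151168 16777216 281474859270144 16777216 281475060596736 16777216 281474926379008 16777216) = true := by
  decide +kernel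

open Tr in
theorem c54 : chk T0 gs0 (s0 (s2 (s3 (s1 (s2 l l) (s2 l l)) (s1 (s0 l l) (s0 l l))) (s3 (s1 (s0 l l) (s0 l l)) (s1 (s0 l l) (s0 l l)))) (s2 (s1 (s3 (s2 (s0 l l) l) (s2 (s0 l l) l)) (d 4)) (s1 (s3 (s0 l l) (s0 l l)) (d 4))))
    (Bx.mk 281475094151168 16777216 281474859270144 16777216 281475060596736 16777216 281474959933440 16777216) = true := by
  decide +kernel

open Tr in
theorem c55 : chk T0 gs0 (s0 (s2 (s3 (s1 (s0 l l) (s0 l l)) (s1 (s0 l l) (s0 l l))) (s3 (s1 l (s0 l l)) (s1 l (s0 l l)))) (s1 (s2 (s3 (s0 l l) (s0 l l)) (s3 (s0 l l) (s0 l l))) (d 4)))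
    (Bx.mk 281475094151168 16777216 281474859270144 16777216 281475094151168 16777216 281474926379008 16777216) = true := by
  decide +kernel

open Tr in
theorem c56 : chk T0 gs0 (s0 (s2 (s3 (s1 (s0 l l) (s0 l l)) (s1 (s0 l l) (s0 l l))) (s3 (s1 l (s0 l l)) (s1 l (s0 l l)))) (s1 (s2 (s3 (s0 l l) (s0 l l)) (s3 (s0 l l) (s0 l l))) (d 4)))
    (Bx.mk 281475094151168 16777216 281474859270144 16777216 281475094151168 16777216 281474959933440 16777216) = true := by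
  decide +kernel

open Tr in
theorem c57 : chk T0 gs0 (s0 (s1 (s0 (s2 (s3 (s0 (s1 (s2 (s3 (d 1) l) l) (d 4)) (d 4)) (s0 (s1 (s2 (s1 l (d 4)) l) (d 4)) (d 4))) (s3 (s0 (s2 l l) (d 4)) (s0 (s1 (s2 l l) (d 4)) (d 4)))) (d 4)) (d 4)) (d 4))
    (Bx.mk 281475094151168 16777216 281474892824576 16777216 281475077373952 33554432 281474943156224 33554432) = true := by
  decide +kernel

open Tr in
theorem c58 : chk T0 gs0 (s3 (d 1) (s2 (s3 (d 1) (s1 (s0 (s2 (s3 (d 1) (s1 l l)) (s1 (s3 l l) (s3 l l))) (s0 (s1 (s0 (s1 (s2 l l) (d 4)) (d 4)) (d 4)) (d 4))) (s0 (s0 (s1 l l) (d 4)) (d 4)))) (s3 (s3 (d 1) (s2 (d 1) (s2 (d 1) (s3 (d 1) (s2 (d 1) (s3 (d 1) (s2 (d 1) (s3 (d 1) (s2 (d 1) (s3 (d 1) (s2 (d 1) (s3 (d 1) (s2 (d 1) (s3 (d 1) (s1 (s0 l l) l))))))))))))))) (s1 (s0 (s2 (s1 (s3 l l) (s3 l l)) (s1 (s3 l l) (s3 l l))) (s0 (s1 (s0 (s2 l l) (d 4)) (d 4)) (d 4))) (s0 (s0 (s1 (s2 l l) l) (d 4)) (d 4))))))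
    (Bx.mk 281475060596736 16777216 281474943156224 33554432 281475010265088 33554432 281474909601792 67108864) = true := by
  decide +kernel

open Tr in
theorem c59 : chk T0 gs0 (s2 (d 1) (s3 (d 1) (s2 (d 1) (s3 (d 1) (s2 (d 1) (s1 l l))))))
    (Bx.mk 281475052208128 8388608 281474943156224 33554432 281475077373952 33554432 281474876047360 33554432) = true := by
  decide +kernel

open Tr in
theorem c60 : chk T0 gs0 (s1 (s3 (s2 (s3 (d 1) (s1 l l)) (s1 (s3 l l) (s3 l l))) (s2 (s1 (s3 l l) (s3 l l)) (s1 (s3 l l) (s3 l l)))) (s0 (s3 (s1 (s2 l l) l) (s1 (s2 l l) l)) (d 4)))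
    (Bx.mk 281475052208128 8388608 281474943156224 33554432 281475060596736 16777216 281474943156224 33554432) = true := by
  decide +kernel

open Tr in
theorem c61 : chk T0 gs0 (s1 (s3 (s2 (s1 (s3 l l) (s3 l l)) (s1 (s3 l l) (s3 l l))) (s2 (s1 (s3 l l) (s3 l l)) (s1 (s3 l l) (s3 l l)))) (s0 (s3 (s1 l l) (s1 (s2 l l) l)) (d 4)))
    (Bx.mk 281475052208128 8388608 281474943156224 33554432 281475094151168 16777216 281474943156224 33554432) = true := by
  decide +kernel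

open Tr in
theorem c62 : chk T0 gs0 (s1 (s1 (s3 (s2 (d 1) (s3 (d 1) (s2 (d 1) (s3 (d 1) l)))) (s0 (s2 (s0 (s1 (s0 (s1 (s3 l l) (d 4)) (d 4)) (d 4)) (d 4)) (s0 (s1 (s3 l (s1 l (d 4))) (d 4)) (d 4))) (d 4))) (d 4)) (d 4))
    (Bx.mk 281475068985344 8388608 281474943156224 33554432 281475077373952 33554432 281474909601792 67108864) = true := by
  decide +kernel

open Tr in
theorem c63 : chk T0 gs0 (d 4)
    (Bx.mk 281475094151168 16777216 281474943156224 33554432 281475043819520 67108864 281474909601792 67108864) = true := by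
  decide +kernel

end D2

end Vale.Agent.Lib.P154
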