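import Vale.Agent.Lib.P154.Prog2

/-! Generated certificates. -/

namespace Vale.Agent.Lib.P154

namespace D2

open Tr in
theorem c480 : chk T1 gs1 (s1 (s0 (s2 (s3 (s1 l l) (s1 l l)) (s3 (s1 l l) (s2 l (d 3)))) (s0 (s0 (s0 (s2 (s1 l l) (s1 l l)) (d 4)) (d 4)) (d 4))) (s0 (s2 (s3 (s1 l l) (s1 l l)) (s3 (s1 l l) (s2 l (d 3)))) (s0 (s0 (s0 (s2 (s1 l l) (s1 l l)) (d 4)) (d 4)) (d 4))))
    (Bx.mk 281475039625216 4194304 281475094151168 16777216 281475119316992 8388608 281475102539776 8388608) = true := by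
  decide +kernel

open Tr in
theorem c481 : chk T1 gs1 (s3 (s1 (s0 (s2 (s1 l (s3 l l)) (s1 l (s3 l l))) (s0 (s0 (s0 (s2 l l) (d 4)) (d 4)) (d 4))) (s0 (s2 (s3 l (s1 l l)) (s3 l (s2 l (d 3)))) (s0 (s0 (s0 (s2 (s1 l l) (s1 l l)) (d 4)) (d 4)) (d 4)))) (s3 (s2 (s3 (s2 (s3 (s2 (s3 (s2 (s1 l (s1 l l)) (d 3)) (d 3)) (d 3)) (d 3)) (d 3)) (d 3)) (d 3)) (d 3)))
    (Bx.mk 281475039625216 4194304 281475094151168 16777216 281475136094208 8388608 281475094151168 16777216) = true := by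
  decide +kernel

open Tr in
theorem c482 : chk T1 gs1 (s2 (s1 (s3 (s0 l l) (s0 (s1 l l) (s1 l l))) (s3 (s0 (s1 l l) (s1 l l)) (s0 (s1 l l) (s2 l l)))) (s1 (s3 (s0 l l) (s2 (s3 l (d 3)) (d 3))) (s3 (s0 (s1 l l) (s1 l l)) (s2 (s3 l (d 3)) (d 3)))))
    (Bx.mk 281475031236608 4194304 281475060596736 16777216 281475161260032 16777216 281475060596736 16777216) = true := by
  decide +kernel

open Tr in
theorem c483 : chk T1 gs1 (s2 (s1 (s3 (s0 (s1 l l) (s0 l (d 4))) (s0 (s1 l l) (s0 (s0 l (d 4)) (d 4)))) (s3 (s0 (s1 l l) (s0 (s0 l (d 4)) (d 4))) (s0 (s2 (s1 l l) (s1 l l)) (s0 (s2 l l) (d 4))))) (s1 (s3 (s0 (s1 l l) (s0 l (d 4))) (s2 (s3 (s2 l (d 3)) (d 3)) (d 3))) (s3 (s0 (s1 l l) (s0 (s0 l (d 4)) (d 4))) (s2 (s3 (s1 l l) (d 3)) (d 3)))))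
    (Bx.mk 281475039625216 4194304 281475060596736 16777216 281475161260032 16777216 281475060596736 16777216) = true := by
  decide +kernel

open Tr in
theorem c484 : chk T1 gs1 (s3 (s2 (s3 (s2 (s3 (s2 (s0 (s1 l l) (s1 l (s2 l (d 3)))) (d 3)) (d 3)) (d 3)) (d 3)) (d 3)) (d 3))
    (Bx.mk 281475035430912 8388608 281475060596736 16777216 281475161260032 16777216 281475094151168 16777216) = true := by
  decide +kernel

open Tr in
theorem c485 : chk T1 gs1 (s3 (s1 (s0 (s1 l l) (s1 l l)) (s0 (s1 l l) (s1 l l))) (s1 (s0 (s2 l l) (s2 (s1 l l) (s1 l l))) (s0 (s2 l l) (s2 (s1 l l) (s1 l l)))))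
    (Bx.mk 281475031236608 4194304 281475094151168 16777216 281475152871424 8388608 281475060596736 16777216) = true := by
  decide +kernel

open Tr in
theorem c486 : chk T1 gs1 (s3 (s1 (s0 (s1 l l) (s1 l l)) (s0 (s1 l l) (s1 l l))) (s3 (s2 (s2 (s1 l l) (d 3)) (d 3)) (d 3)))
    (Bx.mk 281475031236608 4194304 281475094151168 16777216 281475169648640 8388608 281475060596736 16777216) = true := by
  decide +kernel

open Tr in
theorem c487 : chk T1 gs1 (s1 (s3 (s0 (s2 l l) (s0 (s1 l l) (d 4))) (s0 (s2 (s1 l l) (s1 l l)) (s0 (s0 (s1 l l) (d 4)) (d 4)))) (s3 (s0 (s2 l l) (s0 (s1 l l) (d 4))) (s0 (s2 (s1 l l) (s1 l l)) (s0 (s0 (s2 l l) (d 4)) (d 4)))))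
    (Bx.mk 281475039625216 4194304 281475094151168 16777216 281475152871424 8388608 281475060596736 16777216) = true := by
  decide +kernel

open Tr in
theorem c488 : chk T1 gs1 (s1 (s3 (s0 (s2 l l) (s0 (s1 l l) (d 4))) (s3 (s2 (s0 l l) (d 3)) (d 3))) (s3 (s0 (s2 l l) (s0 (s1 l l) (d 4))) (s3 (s2 (s0 l l) (d 3)) (d 3))))
    (Bx.mk 281475039625216 4194304 281475094151168 16777216 281475169648640 8388608 281475060596736 16777216) = true := by
  decide +kernel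

open Tr in
theorem c489 : chk T1 gs1 (s3 (s2 (s3 (s2 (s0 (s2 (s3 (s1 l l) (d 3)) (d 3)) (s3 (s2 (s3 (s2 (s1 l l) (d 3)) (d 3)) (d 3)) (d 3))) (d 3)) (d 3)) (d 3)) (d 3))
    (Bx.mk 281475035430912 8388608 281475094151168 16777216 281475161260032 16777216 281475094151168 16777216) = true := by
  decide +kernel

open Tr in
theorem c490 : chk T1 gs1 (s1 (s3 (s1 (s2 l l) (s2 l l)) (s2 (s1 (s3 l l) (s3 l l)) (s1 (s3 l l) (s3 l l)))) (s3 (s2 (s1 l (s3 l l)) (s1 l (s3 l l))) (s2 (s1 (s3 l l) (s3 l (s1 l l))) (s1 (s3 l l) (s3 l (s2 l (d 3)))))))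
    (Bx.mk 281475031236608 4194304 281475010265088 33554432 281475194814464 16777216 281475010265088 33554432) = true := by
  decide +kernel

open Tr in
theorem c491 : chk T1 gs1 (s1 (s3 (s2 (s1 l l) (s1 l l)) (s2 (s3 (s2 l (d 3)) (d 3)) (d 3))) (s3 (s2 (s1 l (s3 l l)) (s1 l (s3 l l))) (s2 (s3 (s1 l l) (d 3)) (d 3))))
    (Bx.mk 281475031236608 4194304 281475010265088 33554432 281475228368896 16777216 281475010265088 33554432) = true := by
  decide +kernel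

open Tr in
theorem c492 : chk T1 gs1 (s3 (s2 (s2 (s3 (s2 (s3 (s1 l (s2 l (d 3))) (d 3)) (d 3)) (d 3)) (d 3)) (d 3)) (d 3))
    (Bx.mk 281475031236608 4194304 281475010265088 33554432 281475211591680 33554432 281475077373952 33554432) = true := by
  decide +kernel

open Tr in
theorem c493 : chk T1 gs1 (s3 (s2 (s1 (s3 l l) (s3 l l)) (s1 (s3 l l) (s3 l l))) (s2 (s1 (s3 (s1 l l) (s1 l l)) (s3 (s1 l l) (s2 l l))) (s1 (s3 l (s2 l (d 3))) (s3 (s1 l l) (s2 l (d 3))))))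
    (Bx.mk 281475031236608 4194304 281475060596736 16777216 281475194814464 16777216 281475010265088 33554432) = true := by
  decide +kernel

open Tr in
theorem c494 : chk T1 gs1 (s3 (s2 (s1 (s3 l l) (s3 l l)) (s1 (s3 l l) (s3 l l))) (s2 (s1 (s3 (s1 l l) (s0 l l)) (s3 (s1 l l) (s0 l l))) (s1 (s3 (s1 l l) (s2 l (d 3))) (s3 (s1 l l) (s2 l (d 3))))))
    (Bx.mk 281475031236608 4194304 281475094151168 16777216 281475194814464 16777216 281475010265088 33554432) = true := by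
  decide +kernel

open Tr in
theorem c495 : chk T1 gs1 (s1 (s3 (s2 (s1 (s3 l l) (s3 l l)) (s1 (s3 l l) (s3 l l))) (s2 (s3 (s2 (s3 l (d 3)) (d 3)) (d 3)) (d 3))) (s3 (s2 (s1 (s3 l l) (s3 l l)) (s1 (s3 l l) (s3 l l))) (s2 (s3 (s2 (s3 l (d 3)) (d 3)) (d 3)) (d 3))))
    (Bx.mk 281475031236608 4194304 281475077373952 33554432 281475228368896 16777216 281475010265088 33554432) = true := by
  decide +kernel

end D2

end Vale.Agent.Lib.P154
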