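import Vale.Agent.Lib.P154.Prog2

/-! Generated certificates. -/

namespace Vale.Agent.Lib.P154

namespace D2

open Tr in
theorem c496 : chk T1 gs1 (s3 (s2 (s3 (s2 (s1 (s2 (s3 (s1 l l) (d 3)) (d 3)) (s2 (s3 (s1 l l) (d 3)) (d 3))) (d 3)) (d 3)) (d 3)) (d 3))
    (Bx.mk 281475031236608 4194304 281475077373952 33554432 281475211591680 33554432 281475077373952 33554432) = true := by
  decide +kernel

open Tr in
theorem c497 : chk T1 gs1 (s2 (s3 (s1 (s2 l l) (s2 (s3 l l) (s3 l l))) (s1 (s2 (s3 l l) (s3 l l)) (s2 (s3 l l) (s3 l l)))) (s3 (s1 (s2 l (s3 l l)) (s2 (s3 l l) (s3 l l))) (s2 (s3 (s1 l l) (d 3)) (d 3))))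
    (Bx.mk 281475039625216 4194304 281474993487872 16777216 281475211591680 33554432 281475010265088 33554432) = true := by
  decide +kernel

open Tr in
theorem c498 : chk T1 gs1 (s3 (s2 (s1 (s3 l l) (s3 l l)) (s1 (s3 l l) (s3 l l))) (s2 (s1 (s3 l (s1 l l)) (s3 (s1 l l) (s1 l l))) (s1 (s3 l (s2 l (d 3))) (s3 (s1 l l) (s2 l (d 3))))))
    (Bx.mk 281475039625216 4194304 281475027042304 16777216 281475194814464 16777216 281475010265088 33554432) = true := by
  decide +kernel

open Tr in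
theorem c499 : chk T1 gs1 (s3 (s2 (s1 (s3 l l) (s3 l l)) (s1 (s3 l l) (s3 l l))) (s2 (s3 (s2 (s1 l l) (d 3)) (d 3)) (d 3)))
    (Bx.mk 281475039625216 4194304 281475027042304 16777216 281475228368896 16777216 281475010265088 33554432) = true := by
  decide +kernel

open Tr in
theorem c500 : chk T1 gs1 (s3 (s2 (s3 (s2 (s1 (s2 (s1 l l) (d 3)) (s2 (s3 (s1 l l) (d 3)) (d 3))) (d 3)) (d 3)) (d 3)) (d 3))
    (Bx.mk 281475039625216 4194304 281475010265088 33554432 281475211591680 33554432 281475077373952 33554432) = true := by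
  decide +kernel

open Tr in
theorem c501 : chk T1 gs1 (s3 (s2 (s1 (s3 l l) (s3 l (s1 l l))) (s1 (s3 l (s1 l l)) (s3 l (s1 l l)))) (s2 (s1 (s3 (s1 l l) (s0 l (s0 l (d 4)))) (s3 (s2 l l) (s0 (s1 l l) (s0 l (d 4))))) (s1 (s3 (s1 l l) (s2 (s3 l (d 3)) (d 3))) (s3 (s2 l l) (s2 (s3 l (d 3)) (d 3))))))
    (Bx.mk 281475039625216 4194304 281475060596736 16777216 281475194814464 16777216 281475010265088 33554432) = true := by
  decide +kernel

open Tr in
theorem c502 : chk T1 gs1 (s3 (s2 (s1 (s3 l (s1 l l)) (s3 l (s1 l l))) (s1 (s3 l (s2 l (d 3))) (s3 l (s2 l (d 3))))) (s3 (s2 (s2 (s1 l l) (d 3)) (d 3)) (d 3)))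
    (Bx.mk 281475039625216 4194304 281475060596736 16777216 281475228368896 16777216 281475010265088 33554432) = true := by
  decide +kernel

open Tr in
theorem c503 : chk T1 gs1 (s2 (s1 (s3 l (s1 l l)) (s3 l (s1 l l))) (s1 (s3 l (s1 l l)) (s3 l (s1 l l))))
    (Bx.mk 281475039625216 4194304 281475094151168 16777216 281475194814464 16777216 281474993487872 16777216) = true := by
  decide +kernel

open Tr in
theorem c504 : chk T1 gs1 (s2 (s1 (s3 (s2 l l) (s0 (s1 l l) (s0 l (d 4)))) (s3 (s0 l (s0 l (d 4))) (s0 (s1 l l) (s1 l l)))) (s1 (s3 (s2 l l) (s2 (s3 l (d 3)) (d 3))) (s3 (s2 (s1 l l) l) (s2 (s3 l (d 3)) (d 3)))))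
    (Bx.mk 281475039625216 4194304 281475094151168 16777216 281475194814464 16777216 281475027042304 16777216) = true := by
  decide +kernel

open Tr in
theorem c505 : chk T1 gs1 (s3 (s2 (s1 (s3 l (s1 l l)) (s3 l (s1 l l))) (s1 (s3 l (s2 l (d 3))) (s3 l (s2 l (d 3))))) (s3 (s2 (s2 (s1 l l) (d 3)) (d 3)) (d 3)))
    (Bx.mk 281475039625216 4194304 281475094151168 16777216 281475228368896 16777216 281475010265088 33554432) = true := by
  decide +kernel

open Tr in
theorem c506 : chk T1 gs1 (s3 (s2 (s3 (s2 (s1 (s2 (s3 (s1 l (s2 l (d 3))) (d 3)) (d 3)) (s3 (s2 (s2 (s1 l l) (d 3)) (d 3)) (d 3))) (d 3)) (d 3)) (d 3)) (d 3))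
    (Bx.mk 281475039625216 4194304 281475077373952 33554432 281475211591680 33554432 281475077373952 33554432) = true := by
  decide +kernel

open Tr in
theorem c507 : chk T1 gs1 (d 4)
    (Bx.mk 281475077373952 33554432 281475043819520 67108864 281475110928384 134217728 281474976710656 134217728) = true := by
  decide +kernel

end D2

end Vale.Agent.Lib.P154
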