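import Vale.Agent.Lib.P154.Prog2

/-! Generated certificates. -/

namespace Vale.Agent.Lib.P154

namespace D2

open Tr in
theorem c80 : chk T0 gs0 (s2 (s3 (s1 (s0 (s1 l l) (s2 l l)) (s0 l l)) (s2 (d 0) (s3 (s1 l l) (d 0)))) (s3 (s1 (s2 (s0 l l) (s0 l l)) (s0 l l)) (s1 (s0 l (s1 l l)) (s0 l l))))
    (Bx.mk 281475035430912 8388608 281474892824576 16777216 281474993487872 16777216 281474993487872 16777216) = true := by
  decide +kernel

open Tr in
theorem c81 : chk T0 gs0 (s2 (d 0) (s3 (s2 (d 0) (s3 (s1 (s2 (d 0) (s0 l l)) (s2 (d 0) (s0 l l))) (d 0))) (d 0)))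
    (Bx.mk 281475027042304 16777216 281474876047360 33554432 281474993487872 16777216 281475027042304 16777216) = true := by
  decide +kernel

open Tr in
theorem c82 : chk T0 gs0 (s2 (s3 (s1 (s0 l l) (s0 l l)) (s0 l (s1 l l))) (s3 (s1 l l) (s1 l l)))
    (Bx.mk 281475018653696 8388608 281474859270144 16777216 281475027042304 16777216 281474993487872 16777216) = true := by
  decide +kernel

open Tr in
theorem c83 : chk T0 gs0 (s2 (s3 (s1 (s2 (s0 l l) (s0 l l)) (s2 (s0 l l) (s0 l l))) (s1 (s2 (s0 l l) l) (s2 (s0 l l) l))) (s3 (s1 (s0 l l) (s0 l l)) (s1 (s0 l l) (s0 l l))))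
    (Bx.mk 281475035430912 8388608 281474859270144 16777216 281475027042304 16777216 281474993487872 16777216) = true := by
  decide +kernel

open Tr in
theorem c84 : chk T0 gs0 (s0 (s2 (s3 (s1 (s0 l l) l) (s1 l l)) (s3 (s1 l l) (s1 l l))) (s2 (s3 (s1 (s2 (s0 l l) l) (s0 l l)) (s1 (s0 l l) (s0 l l))) (s3 (s1 (s0 l l) (s0 l l)) (s1 (s0 l l) (s0 l l)))))
    (Bx.mk 281475027042304 16777216 281474892824576 16777216 281475027042304 16777216 281474993487872 16777216) = true := by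
  decide +kernel

open Tr in
theorem c85 : chk T0 gs0 (s1 (s2 (s3 (s1 l l) (s2 (d 0) l)) (s3 (s1 l l) (s1 l l))) (s2 (s3 (s1 l l) (s2 (d 0) l)) (s3 (s1 l l) (s1 l l))))
    (Bx.mk 281475018653696 8388608 281474876047360 33554432 281475027042304 16777216 281475027042304 16777216) = true := by
  decide +kernel

open Tr in
theorem c86 : chk T0 gs0 (s1 (s2 (s3 (s1 (s0 l l) (s0 l l)) (s2 (d 0) (s3 l (d 0)))) (s3 (s1 (s0 l l) (s0 l l)) (s1 l l))) (s2 (s3 (s1 (s0 l l) (s0 l l)) (s2 (d 0) (s3 l (d 0)))) (s3 (s1 (s0 l l) l) (s1 l l))))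
    (Bx.mk 281475035430912 8388608 281474876047360 33554432 281475027042304 16777216 281475027042304 16777216) = true := by
  decide +kernel

open Tr in
theorem c87 : chk T0 gs0 (s2 (d 0) (s3 (s2 (d 0) (s3 (s2 (d 0) (s3 (s2 (d 0) (s3 (s2 (d 0) (s1 l (s0 l l))) (d 0))) (d 0))) (d 0))) (d 0)))
    (Bx.mk 281475027042304 16777216 281474876047360 33554432 281475010265088 33554432 281475077373952 33554432) = true := by
  decide +kernel

open Tr in
theorem c88 : chk T0 gs0 (s3 (s1 (s2 (s3 (s1 l l) (s1 l l)) (s3 l l)) (s2 (s3 (s1 l l) (s1 l l)) (s0 l (s1 l l)))) (s1 (s2 (s3 (s1 l l) l) (s3 l l)) (s2 (s3 (s1 l l) (s1 l l)) (s0 l (s1 l l)))))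
    (Bx.mk 281475018653696 8388608 281474876047360 33554432 281475060596736 16777216 281475010265088 33554432) = true := by
  decide +kernel

open Tr in
theorem c89 : chk T0 gs0 (s3 (s1 (s2 (s1 l l) (s1 l l)) (s2 (s1 l l) (s1 l l))) (s1 (s2 (s3 l l) (s1 l l)) (s2 (s3 l l) (s3 l l))))
    (Bx.mk 281475018653696 8388608 281474876047360 33554432 281475094151168 16777216 281475010265088 33554432) = true := by
  decide +kernel

open Tr in
theorem c90 : chk T0 gs0 (s1 (s2 (s3 (s1 l (s0 l l)) (s1 l l)) (s3 (s1 l l) (s1 l l))) (s2 (s3 (s1 l l) (s1 l l)) (s3 (s1 l l) (s1 l l))))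
    (Bx.mk 281475035430912 8388608 281474876047360 33554432 281475060596736 16777216 281474993487872 16777216) = true := by
  decide +kernel

open Tr in
theorem c91 : chk T0 gs0 (s1 (s2 (s3 (s1 l l) (s1 l l)) (s3 (s1 l l) (s1 l l))) (s2 (s3 (s1 l l) (s1 l l)) (s3 (s1 l l) (s1 l l))))
    (Bx.mk 281475035430912 8388608 281474876047360 33554432 281475060596736 16777216 281475027042304 16777216) = true := by
  decide +kernel

open Tr in
theorem c92 : chk T0 gs0 (s3 (s1 (s2 (s3 (s1 l l) (s1 l l)) (s3 l l)) (s2 (s3 (s1 l l) (s1 l l)) (s0 l (s1 l l)))) (s1 (s2 (s3 (s1 l l) (s1 l l)) (s3 l (s1 l l))) (s2 (s3 (s1 l l) (s1 l l)) (s0 (s1 l l) (s1 l l)))))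
    (Bx.mk 281475035430912 8388608 281474876047360 33554432 281475094151168 16777216 281475010265088 33554432) = true := by
  decide +kernel

open Tr in
theorem c93 : chk T0 gs0 (s3 (s1 (s2 (s3 l l) (s3 l l)) (s0 (s2 l l) (s2 (s1 l l) (s1 l l)))) (s3 (s2 (d 0) (s1 l l)) (d 0)))
    (Bx.mk 281475018653696 8388608 281474876047360 33554432 281475060596736 16777216 281475077373952 33554432) = true := by
  decide +kernel

open Tr in
theorem c94 : chk T0 gs0 (s3 (s1 (s0 (s2 l l) (s2 l l)) (s0 (s2 l l) (s2 (s1 l l) l))) (s1 (s0 (s2 l l) (s2 l l)) (s0 (s2 l l) (s2 (s1 l l) (s1 l l)))))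
    (Bx.mk 281475018653696 8388608 281474876047360 33554432 281475094151168 16777216 281475077373952 33554432) = true := by
  decide +kernel

open Tr in
theorem c95 : chk T0 gs0 (s3 (s1 (s2 (s3 (s1 l l) (s2 (d 0) l)) (s3 (s1 l l) (s1 l l))) (s2 (s3 (s1 l l) (s2 (d 0) l)) (s3 (s1 l l) (s1 l l)))) (s2 (d 0) (s3 (s2 (d 0) (s1 l l)) (d 0))))
    (Bx.mk 281475035430912 8388608 281474876047360 33554432 281475060596736 16777216 281475077373952 33554432) = true := by
  decide +kernel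

end D2

end Vale.Agent.Lib.P154
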