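import Vale.Agent.Lib.P154.Prog2

/-! Generated certificates. -/

namespace Vale.Agent.Lib.P154

namespace D2

open Tr in
theorem c96 : chk T0 gs0 (s1 (s2 (s3 (s1 l l) (s1 l l)) (s0 l (s1 l l))) (s0 (s2 (s1 l l) (s1 l l)) (s2 (s1 l l) (s1 l l))))
    (Bx.mk 281475035430912 8388608 281474876047360 33554432 281475094151168 16777216 281475060596736 16777216) = true := by
  decide +kernel

open Tr in
theorem c97 : chk T0 gs0 (s1 (s0 (s2 (s1 l l) (s1 l l)) (s2 (s1 l l) (s1 l l))) (s0 (s2 (s1 l l) (s1 l l)) (s2 (s1 l l) (s1 l l))))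
    (Bx.mk 281475035430912 8388608 281474876047360 33554432 281475094151168 16777216 281475094151168 16777216) = true := by
  decide +kernel

open Tr in
theorem c98 : chk T0 gs0 (s2 (s3 (s1 (s2 (s3 l l) (s3 l l)) (s2 l (s3 l l))) (s3 (s2 (d 0) (s2 (d 0) l)) (d 0))) (s3 (s2 (s1 (s3 l l) (s3 l l)) (s1 (s3 l l) l)) (s2 (s1 (s3 l l) (s3 l l)) (s1 (s3 l l) (s3 l l)))))
    (Bx.mk 281475018653696 8388608 281474926379008 16777216 281475010265088 33554432 281475010265088 33554432) = true := by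
  decide +kernel

open Tr in
theorem c99 : chk T0 gs0 (s2 (s3 (s1 (s2 l l) l) (s3 (s1 l l) (d 0))) (s3 (s1 (s2 l l) (s2 l l)) (s1 (s2 l l) (s2 l l))))
    (Bx.mk 281475018653696 8388608 281474959933440 16777216 281475010265088 33554432 281475010265088 33554432) = true := by
  decide +kernel

open Tr in
theorem c100 : chk T0 gs0 (s3 (s1 (s1 (s2 (s3 l l) (s3 l l)) (s2 (s3 l l) (s3 l l))) (s1 (s2 l l) (s2 l l))) (s3 (s2 (d 0) (s2 (d 0) (s1 (s3 l (d 0)) l))) (d 0)))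
    (Bx.mk 281475035430912 8388608 281474943156224 33554432 281474993487872 16777216 281475010265088 33554432) = true := by
  decide +kernel

open Tr in
theorem c101 : chk T0 gs0 (s1 (s3 (s2 (s1 (s3 l l) (s3 l l)) (s1 (s3 l l) (s3 l l))) (s2 (s1 (s3 l l) (s3 l l)) (s1 (s3 l l) (s3 l l)))) (s3 (s1 (s2 l (s3 l l)) (s2 l l)) (s1 (s0 (s2 l l) (s2 l l)) (s0 l l))))
    (Bx.mk 281475035430912 8388608 281474943156224 33554432 281475027042304 16777216 281475010265088 33554432) = true := by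
  decide +kernel

open Tr in
theorem c102 : chk T0 gs0 (s3 (s2 (d 0) (s3 (s2 (d 0) (s3 (s2 (d 0) (s3 (s2 (d 0) (s3 (s2 (d 0) (s3 (s2 (d 0) (s3 (s2 (d 0) (s3 (s2 (d 0) (s3 (s2 (d 0) (s3 (s2 (d 0) (s3 (s2 (d 0) (s3 (s2 (d 0) (s3 (s2 (d 0) (s3 (s2 (d 0) (s3 (s2 (d 0) (s3 (s2 (d 0) (s3 (s2 (d 0) (s3 (s2 (d 0) (s3 (s2 (d 0) (s3 (s2 (d 0) (s3 (s2 (d 0) (s3 (s2 (d 0) (s3 (s3 (s2 (d 0) (s3 (s2 (d 0) (s2 (d 0) (s1 (s0 l l) (s0 l l)))) (d 0))) (d 0)) (d 0))) (d 0))) (d 0))) (d 0))) (d 0))) (d 0))) (d 0))) (d 0))) (d 0))) (d 0))) (d 0))) (d 0))) (d 0))) (d 0))) (d 0))) (d 0))) (d 0))) (d 0))) (d 0))) (d 0))) (d 0))) (d 0))) (d 0))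
    (Bx.mk 281475027042304 16777216 281474943156224 33554432 281475010265088 33554432 281475077373952 33554432) = true := by
  decide +kernel

open Tr in
theorem c103 : chk T0 gs0 (s1 (s3 (s2 (s1 (s3 l l) l) (s1 (s3 l l) l)) (s0 (s2 (s1 l l) l) (s2 (s1 l l) (s1 l l)))) (s3 (s0 (s1 l l) (s1 l l)) (s0 (s1 l l) (s1 (s2 l l) l))))
    (Bx.mk 281475018653696 8388608 281474943156224 33554432 281475060596736 16777216 281475010265088 33554432) = true := by
  decide +kernel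

open Tr in
theorem c104 : chk T0 gs0 (s1 (s3 (s0 (s1 l l) (s2 l l)) (s0 (s2 l l) (s2 (s1 l l) l))) (s3 (s0 (s1 l l) (s1 l l)) (s0 (s1 l l) (s2 (s1 l l) (s1 l l)))))
    (Bx.mk 281475018653696 8388608 281474943156224 33554432 281475094151168 16777216 281475010265088 33554432) = true := by
  decide +kernel

open Tr in
theorem c105 : chk T0 gs0 (s1 (s3 (s2 (s1 (s3 l l) (s3 l l)) (s1 (s3 l l) (s3 l l))) (s2 (s3 (s1 l l) (s1 l l)) (s0 (s1 l l) (s1 l l)))) (s3 (s1 (s2 (s3 l l) (s3 l l)) (s2 l l)) (s0 (s1 (s2 l l) l) (s1 (s2 l l) (s2 l l)))))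
    (Bx.mk 281475035430912 8388608 281474943156224 33554432 281475060596736 16777216 281475010265088 33554432) = true := by
  decide +kernel

open Tr in
theorem c106 : chk T0 gs0 (s1 (s3 (s2 (s0 (s1 l l) (s1 l l)) (s0 l (s1 l l))) (s0 (s2 (s1 l l) (s1 l l)) (s2 (s1 l l) (s1 l l)))) (s3 (s0 (s2 l l) (s1 (s2 l l) (s2 l l))) (s0 (s2 (s1 l l) (s1 l l)) (s2 (s1 l l) (s1 l l)))))
    (Bx.mk 281475035430912 8388608 281474943156224 33554432 281475094151168 16777216 281475010265088 33554432) = true := by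
  decide +kernel

open Tr in
theorem c107 : chk T0 gs0 (s3 (s1 (s0 (s2 (s1 l l) l) (s2 (s1 l l) (s1 l l))) (s0 (s1 (s2 l l) l) (s1 (s2 l l) (s2 l l)))) (s3 (s2 (d 0) (s3 (s1 l (s2 (d 0) l)) (d 0))) (d 0)))
    (Bx.mk 281475018653696 8388608 281474943156224 33554432 281475060596736 16777216 281475077373952 33554432) = true := by
  decide +kernel

open Tr in
theorem c108 : chk T0 gs0 (s3 (s1 (s0 (s2 l l) (s2 (s1 l l) (s1 l l))) (s0 (s2 (s1 l l) (s1 l l)) (s2 (s1 l l) (s1 l l)))) (s1 (s0 (s2 (s1 l l) (s1 l l)) (s2 (s1 l l) (s1 l l))) (s0 (s2 (s1 l l) (s1 l l)) (s2 (s1 l l) (s1 l l)))))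
    (Bx.mk 281475018653696 8388608 281474943156224 33554432 281475094151168 16777216 281475077373952 33554432) = true := by
  decide +kernel

open Tr in
theorem c109 : chk T0 gs0 (s3 (s1 (s0 (s2 (s1 l l) (s1 l l)) (s2 (s1 l l) (s1 l l))) (s0 (s1 (s2 l l) (s2 l l)) (s1 (s2 l l) (s2 l l)))) (s3 (s2 (d 0) (s3 (s2 (d 0) (s1 l (s2 (d 0) l))) (d 0))) (d 0)))
    (Bx.mk 281475035430912 8388608 281474943156224 33554432 281475060596736 16777216 281475077373952 33554432) = true := by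
  decide +kernel

open Tr in
theorem c110 : chk T0 gs0 (s1 (s0 (s2 (s1 l l) (s1 l l)) (s2 (s1 l l) (s1 l l))) (s0 (s2 (s1 l l) (s1 l l)) (s2 (s1 l l) (s1 l l))))
    (Bx.mk 281475035430912 8388608 281474943156224 33554432 281475094151168 16777216 281475060596736 16777216) = true := by
  decide +kernel

open Tr in
theorem c111 : chk T0 gs0 (s1 (s0 (s2 (s1 l l) (s1 l l)) (s2 (s3 l l) (s3 l l))) (s0 (s2 (s3 l l) (s3 l l)) (s2 (s3 l (s2 (d 0) l)) (s3 (s1 l l) (s1 l l)))))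
    (Bx.mk 281475035430912 8388608 281474943156224 33554432 281475094151168 16777216 281475094151168 16777216) = true := by
  decide +kernel

end D2

end Vale.Agent.Lib.P154
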