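import Vale.Agent.Lib.P154.Prog2

/-! Generated certificates. -/

namespace Vale.Agent.Lib.P154

namespace D2

open Tr in
theorem c128 : chk T0 gs0 (s3 (s0 (s1 (s2 (s3 l l) (s3 l l)) (s2 (s3 l l) (s3 l l))) (s1 (s2 (s0 l l) (s0 l l)) (d 4))) (s3 (s2 (d 0) (s3 (s2 (d 0) (s3 (s1 l l) (d 0))) (d 0))) (d 0)))
    (Bx.mk 281475094151168 16777216 281474859270144 16777216 281474985099264 8388608 281474993487872 16777216) = true := by
  decide +kernel

open Tr in
theorem c129 : chk T0 gs0 (s3 (s0 (s1 (s2 (s3 l l) (s0 l l)) (s2 (s0 l l) (s0 l l))) (s1 (s2 (s0 l l) (s0 l l)) (d 4))) (s0 (s1 (s2 (s0 l l) (s0 l l)) (s2 (s0 l l) (s0 l l))) (s1 (s2 (s0 l l) (s0 l l)) (d 4))))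
    (Bx.mk 281475094151168 16777216 281474859270144 16777216 281475001876480 8388608 281474993487872 16777216) = true := by
  decide +kernel

open Tr in
theorem c130 : chk T0 gs0 (s3 (s2 (d 0) (s2 (d 0) (s3 (s2 (d 0) (s3 (s0 l l) (d 0))) (d 0)))) (d 0))
    (Bx.mk 281475094151168 16777216 281474859270144 16777216 281474993487872 16777216 281475027042304 16777216) = true := by
  decide +kernel

open Tr in
theorem c131 : chk T0 gs0 (s3 (s1 (s2 (s0 l l) (s0 l l)) (s2 (s0 l l) (s0 l l))) (s1 (s2 (s0 l l) (s0 l l)) (s2 (s0 l l) (s0 l l))))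
    (Bx.mk 281475085762560 8388608 281474859270144 16777216 281475018653696 8388608 281474993487872 16777216) = true := by
  decide +kernel

open Tr in
theorem c132 : chk T0 gs0 (s3 (s1 (s2 (s0 l l) (s0 l l)) (s2 (s0 l l) (s0 l l))) (s1 (s2 (s0 l l) l) (s0 (s1 l l) (s1 l (d 4)))))
    (Bx.mk 281475085762560 8388608 281474859270144 16777216 281475035430912 8388608 281474993487872 16777216) = true := by
  decide +kernel

open Tr in
theorem c133 : chk T0 gs0 (s1 (s2 (s3 (s2 (s0 l l) (s0 l l)) (s2 (s0 l l) (s0 l l))) (s3 (s2 (s0 l l) (s0 l l)) (s2 (s0 l l) (s0 l l)))) (d 4))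
    (Bx.mk 281475102539776 8388608 281474859270144 16777216 281475027042304 16777216 281474993487872 16777216) = true := by
  decide +kernel

open Tr in
theorem c134 : chk T0 gs0 (s0 (s2 (s3 (s1 (s0 (s1 l l) (s1 l l)) (s0 (s1 l l) (s1 l (d 4)))) (s2 (d 0) (s1 l l))) (s3 (s1 (s0 l l) (s0 l l)) (s1 (s0 l l) (s0 l l)))) (s1 (s2 (s3 (s2 (s0 l l) (s0 l l)) (s2 (d 0) (s3 l (d 0)))) (s3 (s0 l (s1 l (d 4))) (s0 l l))) (d 4)))
    (Bx.mk 281475094151168 16777216 281474859270144 16777216 281475027042304 16777216 281475027042304 16777216) = true := by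
  decide +kernel

open Tr in
theorem c135 : chk T0 gs0 (s0 (s1 (s0 (s2 (s3 (s0 (s1 (s0 (s1 (s0 (s1 (s1 (s2 (s3 l l) (s3 l l)) (d 4)) (d 4)) (d 4)) (d 4)) (d 4)) (d 4)) (d 4)) (s2 (d 0) (s3 (s1 l (d 4)) (d 0)))) (s3 (s0 (s1 (s0 (s1 (s2 (s3 l l) l) (d 4)) (d 4)) (d 4)) (d 4)) (s0 (s1 (s0 (s2 (s1 l (d 4)) l) (d 4)) (d 4)) (d 4)))) (d 4)) (d 4)) (d 4))
    (Bx.mk 281475094151168 16777216 281474892824576 16777216 281475010265088 33554432 281475010265088 33554432) = true := by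
  decide +kernel

open Tr in
theorem c136 : chk T0 gs0 (s2 (d 0) (s3 (s2 (d 0) (s3 (s2 (d 0) (s3 (s2 (d 0) (s3 (s2 (d 0) (s3 (s2 (d 0) (s0 (s1 (s0 l l) (s0 l l)) (s1 (s0 l l) (s0 l (d 4))))) (d 0))) (d 0))) (d 0))) (d 0))) (d 0)))
    (Bx.mk 281475077373952 33554432 281474876047360 33554432 281475010265088 33554432 281475077373952 33554432) = true := by
  decide +kernel

open Tr in
theorem c137 : chk T0 gs0 (s1 (s2 (s3 (s1 (s0 l l) (s0 l l)) (s1 (s0 l l) (s0 l l))) (s3 (s1 l (s0 l l)) (s1 l (s0 l l)))) (s2 (s3 (s1 (s0 l l) (s0 l l)) (s1 (s0 l l) (s0 l l))) (s3 (s1 l l) (s1 l l))))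
    (Bx.mk 281475052208128 8388608 281474876047360 33554432 281475060596736 16777216 281474993487872 16777216) = true := by
  decide +kernel

open Tr in
theorem c138 : chk T0 gs0 (s1 (s2 (s3 (s1 (s0 l l) (s0 l l)) (s0 l (s1 l l))) (s3 (s1 l l) (s1 l l))) (s2 (s3 (s1 (s0 l l) (s0 l l)) (s1 (s0 l l) (s0 l l))) (s3 (s1 l l) (s1 l l))))
    (Bx.mk 281475052208128 8388608 281474876047360 33554432 281475060596736 16777216 281475027042304 16777216) = true := by
  decide +kernel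

open Tr in
theorem c139 : chk T0 gs0 (s1 (s2 (s3 (s1 l l) (s1 l l)) (s3 (s1 l l) (s1 l l))) (s2 (s3 (s1 l l) (s1 l l)) (s3 (s1 l l) (s1 l l))))
    (Bx.mk 281475052208128 8388608 281474876047360 33554432 281475094151168 16777216 281474993487872 16777216) = true := by
  decide +kernel

open Tr in
theorem c140 : chk T0 gs0 (s1 (s2 (s3 (s1 l l) (s1 l l)) (s3 (s1 l l) (s1 l l))) (s2 (s3 (s1 l l) (s1 l l)) (s3 (s1 l l) (s1 l l))))
    (Bx.mk 281475052208128 8388608 281474876047360 33554432 281475094151168 16777216 281475027042304 16777216) = true := by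
  decide +kernel

open Tr in
theorem c141 : chk T0 gs0 (s2 (s3 (s1 (s0 l l) (s0 l l)) (s1 (s0 l l) (s0 l l))) (s3 (s1 (s0 l l) (s0 l l)) (s1 (s0 l l) (s0 l l))))
    (Bx.mk 281475068985344 8388608 281474859270144 16777216 281475060596736 16777216 281474993487872 16777216) = true := by
  decide +kernel

open Tr in
theorem c142 : chk T0 gs0 (s2 (s3 (s1 (s0 l l) (s0 l l)) (s1 (s0 l l) (s0 l l))) (s3 (s1 (s0 l l) (s0 l l)) (s1 (s0 l l) (s0 l l))))
    (Bx.mk 281475068985344 8388608 281474892824576 16777216 281475060596736 16777216 281474993487872 16777216) = true := by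
  decide +kernel

open Tr in
theorem c143 : chk T0 gs0 (s2 (s3 (s1 (s0 l l) (s0 l l)) (s1 (s0 l l) (s0 l l))) (s3 (s0 (s1 l l) (s1 l l)) (s0 (s1 l l) (s1 l l))))
    (Bx.mk 281475068985344 8388608 281474859270144 16777216 281475060596736 16777216 281475027042304 16777216) = true := by
  decide +kernel

end D2

end Vale.Agent.Lib.P154
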